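import Mathlib

/-!
# The reduction modulo three: `F₉ + F₉ j`, `j² = 1`
-/

namespace Vale.Agent.P014.H698

/-- `((a, b), (c, d))` is `a + b i + (c + d i) j` -/
abbrev M9 := (ZMod 3 × ZMod 3) × (ZMod 3 × ZMod 3)

/-- the product of `F₉` -/
def m9 (x y : ZMod 3 × ZMod 3) : ZMod 3 × ZMod 3 :=
  (x.1 * y.1 - x.2 * y.2, x.1 * y.2 + x.2 * y.1)

/-- the conjugate -/
def c9 (x : ZMod 3 × ZMod 3) : ZMod 3 × ZMod 3 := (x.1, -x.2)

/-- the norm -/
def n9 (x : ZMod 3 × ZMod 3) : ZMod 3 := x.1 * x.1 + x.2 * x.2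

/-- the product -/
def mm (u v : M9) : M9 :=
  (m9 u.1 v.1 + m9 u.2 (c9 v.2), m9 u.1 v.2 + m9 u.2 (c9 v.1))

/-- the involution -/
def st (u : M9) : M9 := (c9 u.1, -u.2)

/-- the norm -/
def nm (u : M9) : ZMod 3 := n9 u.1 - n9 u.2

/-- the integer sign -/
def sgn (a : ZMod 3) : ℤ := if a = 0 then 0 else if a = 1 then 1 else -1

/-- the quadratic character -/
def eta (x : ZMod 3 × ZMod 3) : ℤ := sgn (n9 x)

/-- the left direction -/
def dl (u : M9) : ZMod 3 × ZMod 3 := (-(n9 u.2) * (m9 u.1 u.2).1, -(n9 u.2) * (m9 u.1 u.2).2)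

/-- the right direction -/
def dr (u : M9) : ZMod 3 × ZMod 3 := (n9 u.1 * (m9 (c9 u.1) u.2).1, n9 u.1 * (m9 (c9 u.1) u.2).2)

/-- the sign of a direction -/
def lam (z : ZMod 3 × ZMod 3) : ℤ := sgn (z.1 * z.1 - z.2 * z.2)

/-- the fourth roots of unity -/
def mu4 : Finset (ZMod 3 × ZMod 3) := {(1, 0), (-1, 0), (0, 1), (0, -1)}

theorem a1 : ∀ r : M9, nm r = 0 → r ≠ 0 → dl r ∈ mu4 ∧ dr r ∈ mu4 ∧
    eta r.1 = lam (dl r) * lam (dr r) := by
  decide +kernel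

/-- rank one -/
def r1 (u : M9) : Prop := nm u = 0 ∧ u ≠ 0

instance (u : M9) : Decidable (r1 u) := inferInstanceAs (Decidable (_ ∧ _))

theorem b1 : ∀ r r' : M9, r1 r → r1 r' → (mm (st r) r' = 0 ↔ dl r = dl r') := by
  decide +kernel

theorem c2 : ∀ r r' : M9, r1 r → r1 r' → mm r r' ≠ 0 →
    (r1 (mm r r') ∧ dl (mm r r') = dl r ∧ dr (mm r r') = dr r') := by
  decide +kernel

theorem d1 : ∀ r g : M9, r1 r → nm g ≠ 0 → r1 (mm r g) ∧ dl (mm r g) = dl r := by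
  decide +kernel

theorem e1 : ∀ r : M9, r1 r → r1 (st r) ∧ dl (st r) = dr r ∧ dr (st r) = dl r := by
  decide +kernel

theorem st_st : ∀ r : M9, st (st r) = r := by
  decide +kernel

theorem c1 (r r' : M9) (h : r1 r) (h' : r1 r') : mm r r' = 0 ↔ dr r = dl r' := by
  obtain ⟨h1, h2, -⟩ := e1 r h
  rw [← h2, ← b1 (st r) r' h1 h', st_st]

theorem e2 : ∀ r : M9, r1 r → r1 (-r) ∧ dl (-r) = dl r ∧ dr (-r) = dr r := by
  decide +kernel

theorem f1 : ∀ r g : M9, r1 r → nm g ≠ 0 →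
    lam (dr (mm r g)) = lam (dr r) * eta (g.1 + m9 (dr r) (c9 g.2)) := by
  decide +kernel

theorem g1 : ∀ g : M9, nm g ≠ 0 →
    ∑ z ∈ mu4, eta (g.1 + m9 z (c9 g.2)) = 4 * (eta g.1 + eta g.2) := by
  decide +kernel

theorem g2 : ∀ g : M9, nm g ≠ 0 → ∑ z ∈ mu4, lam z * eta (g.1 + m9 z (c9 g.2)) = 0 := by
  decide +kernel

/-- the even function on the units -/
def hh (r : M9) : ℤ := eta r.1 + eta r.2

theorem h1 : ∀ g r : M9, nm g = 1 → g.1.1 = 1 → g ≠ ((1, 0), (0, 0)) → nm r ≠ 0 →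
    hh r + hh (mm g r) + hh (-r - mm g r) = eta (mm g r - r).1 := by
  intro g r h0 h1
  revert r
  obtain ⟨⟨g1, g2⟩, ⟨g3, g4⟩⟩ := g
  simp only at h1
  subst h1
  revert g2 g3 g4
  decide +kernel

theorem lam_pm : ∀ z ∈ mu4, lam z = 1 ∨ lam z = -1 := by decide +kernel

theorem sum_lam : ∑ z ∈ mu4, lam z = 0 := by decide +kernel

theorem card_mu4 : mu4.card = 4 := by decide +kernel

theorem hh_neg : ∀ r : M9, hh (-r) = hh r := by decide +kernel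

end Vale.Agent.P014.H698
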