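import Vale.Agent.P014.H70.Sys
import Vale.Agent.P014.H698.M9

/-!
# Systems of lattices with a reduction modulo three
-/

namespace Vale.Agent.P014.H698

open Vale.Agent.P014.H70 Vale.Agent.P014.H70.QA

set_option linter.unusedSectionVars false

variable {B : Type*} [Ring B] [Nontrivial B] [Algebra ℚ B] [StarRing B] [QA B] {J : Type*}

/-- a reduction modulo three -/
structure R3 (S : Sys B J) where
  red : B → M9
  kap : J → ZMod 3
  kap_ne : ∀ a, kap a ≠ 0
  one : red 1 = ((1, 0), (0, 0))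
  add : ∀ {a b : J} {u v : B}, u ∈ S.I a b → v ∈ S.I a b → red (u + v) = red u + red v
  mul : ∀ {a b c : J} {u v : B}, u ∈ S.I a b → v ∈ S.I b c → red (u * v) = mm (red u) (red v)
  conj : ∀ {a b : J} {v : B}, v ∈ S.I a b →
    red (algebraMap ℚ B (S.N a / S.N b) * star v) = (kap a * kap b) • st (red v)
  nrm : ∀ {a b : J} {v : B} {m : ℤ}, v ∈ S.I a b → S.N a / S.N b * nr v = m →
    nm (red v) = kap a * kap b * m
  zer : ∀ {a b : J} {v : B}, v ∈ S.I a b → red v = 0 → ∃ v' ∈ S.I a b, v = (3 : ℤ) • v'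
  rep3 : ∀ a b, S.rep a b 3 = 6
  rep9 : ∀ a b, S.rep a b 9 + 3 * S.rep a b 1 = 24

section

variable (S : Sys B J)

/-- the normalised norm -/
def Qn (a b : J) (v : B) : ℚ := S.N a / S.N b * nr v

/-- the normalised involution -/
def sta (a b : J) (v : B) : B := algebraMap ℚ B (S.N a / S.N b) * star v

theorem Qn_mul (a b c : J) (u v : B) : Qn S a b (u * v) = Qn S a c u * Qn S c b v := by
  have h1 := (S.hN a).ne'
  have h2 := (S.hN b).ne'
  have h3 := (S.hN c).ne'
  unfold Qn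
  rw [nr_mul]
  field_simp

theorem Qn_sta (a b : J) (v : B) : Qn S b a (sta S a b v) = Qn S a b v := by
  have h1 := (S.hN a).ne'
  have h2 := (S.hN b).ne'
  unfold Qn sta
  rw [nr_C_mul, nr_star]
  field_simp

theorem zsmul_eq (m : ℤ) (v : B) : m • v = algebraMap ℚ B (m : ℚ) * v := by
  rw [map_intCast, zsmul_eq_mul]

theorem Qn_zsmul (a b : J) (m : ℤ) (v : B) : Qn S a b (m • v) = (m : ℚ) ^ 2 * Qn S a b v := by
  unfold Qn
  rw [zsmul_eq, nr_C_mul]
  ring

theorem sta_sta (a b : J) (v : B) : sta S b a (sta S a b v) = v := by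
  have h1 := (S.hN a).ne'
  have h2 := (S.hN b).ne'
  unfold sta
  rw [star_mul, star_star, star_C, ← C_comm, ← mul_assoc, ← map_mul]
  have : S.N b / S.N a * (S.N a / S.N b) = 1 := by field_simp
  rw [this, map_one, one_mul]

theorem mul_sta (a b : J) (v : B) : v * sta S a b v = algebraMap ℚ B (Qn S a b v) := by
  unfold sta Qn
  rw [← mul_assoc, ← C_comm, mul_assoc, mul_star, ← map_mul]

theorem sta_mul_self (a b : J) (v : B) : sta S a b v * v = algebraMap ℚ B (Qn S a b v) := by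
  unfold sta Qn
  rw [mul_assoc, QA.star_mul', ← map_mul]

theorem sta_mem {a b : J} {v : B} (hv : v ∈ S.I a b) : sta S a b v ∈ S.I b a := S.conj hv

instance (a b : J) (m : ℕ) : Finite {v : B | v ∈ S.I a b ∧ S.N a / S.N b * nr v = m} :=
  S.fin a b m

/-- the elements of given norm -/
noncomputable def E (a b : J) (m : ℕ) : Finset B :=
  (Set.toFinite {v : B | v ∈ S.I a b ∧ S.N a / S.N b * nr v = m}).toFinset

theorem mem_E {a b : J} {m : ℕ} {v : B} : v ∈ E S a b m ↔ v ∈ S.I a b ∧ Qn S a b v = m := by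
  unfold E
  rw [Set.Finite.mem_toFinset]
  rfl

theorem card_E (a b : J) (m : ℕ) : (E S a b m).card = S.rep a b m := by
  unfold E Sys.rep
  exact (Set.ncard_eq_toFinset_card {v : B | v ∈ S.I a b ∧ S.N a / S.N b * nr v = m}
    (Set.toFinite _)).symm

theorem E_sta {a b : J} {m : ℕ} {v : B} (hv : v ∈ E S a b m) : sta S a b v ∈ E S b a m := by
  rw [mem_E] at hv ⊢
  exact ⟨sta_mem S hv.1, by rw [Qn_sta, hv.2]⟩

theorem E_mul {a b c : J} {m k : ℕ} {u v : B} (hu : u ∈ E S a c m) (hv : v ∈ E S c b k) :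
    u * v ∈ E S a b (m * k) := by
  rw [mem_E] at hu hv ⊢
  refine ⟨S.mul hu.1 hv.1, ?_⟩
  rw [Qn_mul S a b c, hu.2, hv.2]
  push_cast
  ring

theorem zsmul_cancel {m : ℤ} (hm : m ≠ 0) {u v : B} (h : m • u = m • v) : u = v := by
  rw [zsmul_eq, zsmul_eq] at h
  have h1 : algebraMap ℚ B (m : ℚ) * (u - v) = 0 := by rw [mul_sub, h, sub_self]
  exact sub_eq_zero.mp (C_mul_eq_zero (by exact_mod_cast hm) h1)

theorem ne_zero_of_E {a b : J} {m : ℕ} (hm : m ≠ 0) {v : B} (hv : v ∈ E S a b m) : v ≠ 0 := by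
  rintro rfl
  rw [mem_E] at hv
  have h1 := hv.2
  unfold Qn at h1
  rw [nr_zero, mul_zero] at h1
  exact hm (by exact_mod_cast h1.symm)

theorem mul_left_cancel' {u v w : B} (hu : u ≠ 0) (h : u * v = u * w) : v = w := by
  have h1 : u * (v - w) = 0 := by rw [mul_sub, h, sub_self]
  rcases mul_eq_zero' h1 with h2 | h2
  · exact absurd h2 hu
  · exact sub_eq_zero.mp h2

theorem mul_right_cancel' {u v w : B} (hu : u ≠ 0) (h : v * u = w * u) : v = w := by
  have h1 : (v - w) * u = 0 := by rw [sub_mul, h, sub_self]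
  rcases mul_eq_zero' h1 with h2 | h2
  · exact sub_eq_zero.mp h2
  · exact absurd h2 hu

end

namespace R3

variable {S : Sys B J} (R : R3 S)

theorem kap_cases (a b : J) : R.kap a * R.kap b = 1 ∨ R.kap a * R.kap b = -1 := by
  have h1 := R.kap_ne a
  have h2 := R.kap_ne b
  generalize R.kap a = x at h1 ⊢
  generalize R.kap b = y at h2 ⊢
  revert x y
  decide

theorem red_sta {a b : J} {v : B} (hv : v ∈ S.I a b) :
    R.red (sta S a b v) = st (R.red v) ∨ R.red (sta S a b v) = -st (R.red v) := by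
  have h := R.conj hv
  rcases R.kap_cases a b with h1 | h1
  · left; rw [h1, one_smul] at h; exact h
  · right; rw [h1, neg_smul, one_smul] at h; exact h

theorem nm_ne {a b : J} {v : B} {m : ℕ} (hv : v ∈ E S a b m) (hm : ¬ 3 ∣ m) :
    nm (R.red v) ≠ 0 := by
  rw [mem_E] at hv
  have h1 := R.nrm (m := (m : ℤ)) hv.1 (by rw [← Qn, hv.2]; push_cast; rfl)
  rw [h1]
  have h3 : ((m : ℤ) : ZMod 3) ≠ 0 := by
    rw [Int.cast_natCast, Ne, ZMod.natCast_eq_zero_iff]
    exact hm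
  have h4 := R.kap_ne a
  have h5 := R.kap_ne b
  have : Fact (Nat.Prime 3) := ⟨by norm_num⟩
  exact mul_ne_zero (mul_ne_zero h4 h5) h3

theorem nm_zero {a b : J} {v : B} {m : ℕ} (hv : v ∈ E S a b m) (hm : 3 ∣ m) :
    nm (R.red v) = 0 := by
  rw [mem_E] at hv
  have h1 := R.nrm (m := (m : ℤ)) hv.1 (by rw [← Qn, hv.2]; push_cast; rfl)
  rw [h1]
  have h3 : ((m : ℤ) : ZMod 3) = 0 := by
    rw [Int.cast_natCast, ZMod.natCast_eq_zero_iff]
    exact hm
  rw [h3, mul_zero]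

/-- elements divisible by three -/
theorem E_zer {a b : J} {v : B} {m : ℕ} (hv : v ∈ E S a b m) (h0 : R.red v = 0) :
    ∃ k : ℕ, m = 9 * k ∧ ∃ v' ∈ E S a b k, v = (3 : ℤ) • v' := by
  rw [mem_E] at hv
  obtain ⟨v', hv', rfl⟩ := R.zer hv.1 h0
  obtain ⟨k, hk⟩ := S.hint hv'
  have h1 := hv.2
  rw [Qn_zsmul] at h1
  have h2 : Qn S a b v' = k := hk
  rw [h2] at h1
  have h3 : (9 : ℤ) * k = m := by
    have : (3 : ℚ) ^ 2 * k = m := by exact_mod_cast h1
    have h4 : ((9 * k : ℤ) : ℚ) = ((m : ℤ) : ℚ) := by push_cast; rw [← this]; norm_num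
    exact_mod_cast h4
  have hk0 : 0 ≤ k := by omega
  lift k to ℕ using hk0
  refine ⟨k, by omega, v', ?_, rfl⟩
  rw [mem_E]
  exact ⟨hv', by rw [h2]; push_cast; rfl⟩

theorem r1_three {a b : J} {v : B} (hv : v ∈ E S a b 3) : r1 (R.red v) := by
  refine ⟨R.nm_zero hv dvd_rfl, fun h0 => ?_⟩
  obtain ⟨k, hk, -⟩ := R.E_zer hv h0
  omega

theorem r1_nine {a b : J} {v : B} (hv : v ∈ E S a b 9) (h : R.red v ≠ 0) : r1 (R.red v) :=
  ⟨R.nm_zero hv ⟨3, rfl⟩, h⟩

/-- **factorisation** -/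
theorem factor {a b c : J} {u w : B} {m : ℕ} (hu : u ∈ E S a c 3) (hw : w ∈ E S a b (3 * m))
    (h0 : mm (st (R.red u)) (R.red w) = 0) : ∃ v ∈ E S c b m, w = u * v := by
  have hu' := mem_E S |>.mp hu
  have hw' := mem_E S |>.mp hw
  have hsu := E_sta S hu
  have hsu' := mem_E S |>.mp hsu
  have hp : sta S a c u * w ∈ E S c b (3 * (3 * m)) := E_mul S hsu hw
  have h1 : R.red (sta S a c u * w) = 0 := by
    rw [R.mul hsu'.1 hw'.1]
    rcases R.red_sta hu'.1 with h2 | h2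
    · rw [h2, h0]
    · rw [h2]
      have : ∀ x y : M9, mm (-x) y = -mm x y := by
        intro x y
        unfold mm m9 c9
        ext <;> simp <;> ring
      rw [this, h0, neg_zero]
  obtain ⟨k, hk, v, hv, hv2⟩ := R.E_zer hp h1
  have hkm : k = m := by omega
  subst hkm
  refine ⟨v, hv, ?_⟩
  apply zsmul_cancel (m := 3) (by norm_num)
  have h3 : u * (sta S a c u * w) = u * ((3 : ℤ) • v) := by rw [hv2]
  rw [← mul_assoc, mul_sta, hu'.2, mul_smul_comm] at h3
  rw [← h3, zsmul_eq]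
  norm_num

end R3

end Vale.Agent.P014.H698
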