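import Vale.Agent.P014.H698.R7

/-!
# The main identity (conductor three): units of order six, and the theorem
-/

namespace Vale.Agent.P014.H698

open Vale.Agent.P014.H70 Vale.Agent.P014.H70.QA

set_option linter.unusedSectionVars false

variable {B : Type*} [Ring B] [Nontrivial B] [Algebra ℚ B] [StarRing B] [QA B] {J : Type*}

theorem one_E (S : Sys B J) (a : J) : (1 : B) ∈ E S a a 1 := by
  rw [mem_E]
  refine ⟨S.one a, ?_⟩
  unfold Qn
  rw [S.kaa, nr_one]; norm_num

theorem neg_E {S : Sys B J} {a b : J} {m : ℕ} {v : B} (hv : v ∈ E S a b m) : -v ∈ E S a b m := by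
  rw [mem_E] at hv ⊢
  refine ⟨(S.I a b).neg_mem hv.1, ?_⟩
  have : Qn S a b (-v) = Qn S a b v := by unfold Qn; rw [nr_neg]
  rw [this, hv.2]

/-- an element of order three -/
theorem exists_zeta (S : Sys B J) {a : J} (h : S.rep a a 1 = 6) :
    ∃ ζ ∈ E S a a 1, tr ζ = -1 := by
  classical
  have hcard := card_E S a a 1
  rw [h] at hcard
  have h2 : ∃ v ∈ E S a a 1, v ≠ 1 ∧ v ≠ -1 := by
    by_contra hc
    push Not at hc
    have hsub : E S a a 1 ⊆ {1, -1} := by
      intro v hv
      rw [Finset.mem_insert, Finset.mem_singleton]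
      by_cases h1 : v = 1
      · exact Or.inl h1
      · exact Or.inr (hc v hv h1)
    have h3 := Finset.card_le_card hsub
    have h4 : ({1, -1} : Finset B).card ≤ 2 := Finset.card_le_two
    omega
  obtain ⟨v, hv, hv1, hv2⟩ := h2
  have hv' := mem_E S |>.mp hv
  have hn : nr v = 1 := by
    have := hv'.2
    unfold Qn at this
    rw [S.kaa, one_mul] at this
    rw [this]; norm_num
  rcases S.norm_one hv'.1 hn with h3 | h3 | h3 | h3
  · exact absurd h3 hv1
  · exact absurd h3 hv2
  · exact ⟨-v, neg_E hv, by rw [tr_neg, h3]⟩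
  · exact ⟨v, hv, h3⟩

/-- the units of a maximal order of the first type -/
theorem units_six (S : Sys B J) {a : J} (h : S.rep a a 1 = 6) {ζ : B} (hζ : ζ ∈ E S a a 1)
    (ht : tr ζ = -1) (f : B → ℤ) (hf : ∀ v, f (-v) = f v) :
    ∑ v ∈ E S a a 1, f v = 2 * (f 1 + f ζ + f (-1 - ζ)) := by
  classical
  have hζ' := mem_E S |>.mp hζ
  have hn : nr ζ = 1 := by
    have := hζ'.2
    unfold Qn at this
    rw [S.kaa, one_mul] at this
    rw [this]; norm_num
  have hst : star ζ = -1 - ζ := by rw [star_eq, ht, map_neg, map_one]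
  have hz2 : -1 - ζ ∈ E S a a 1 := by
    rw [mem_E]
    refine ⟨(S.I a a).sub_mem ((S.I a a).neg_mem (S.one a)) hζ'.1, ?_⟩
    unfold Qn
    rw [← hst, nr_star, S.kaa, hn]; norm_num
  have key : ∀ x y : B, tr x ≠ tr y → x ≠ y := fun x y h e => h (by rw [e])
  have t1 : tr (1 : B) = 2 := tr_one
  have t2 : tr (-1 : B) = -2 := by rw [tr_neg, tr_one]
  have t3 : tr (-ζ) = 1 := by rw [tr_neg, ht]; norm_num
  have t4 : tr (-1 - ζ) = -1 := by rw [tr_sub, t2, ht]; norm_num
  have t5 : tr (-(-1 - ζ)) = 1 := by rw [tr_neg, t4]; norm_num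
  have hne : ζ ≠ -1 - ζ := by
    intro h0
    have h1 : ζ + ζ = -1 := by nth_rewrite 2 [h0]; abel
    have h2 := nr_add ζ ζ
    rw [h1, nr_neg, nr_one, mul_star, hn, tr_C] at h2
    norm_num at h2
  have hne' : -ζ ≠ -(-1 - ζ) := fun h0 => hne (neg_injective h0)
  have hset : E S a a 1 = {1, -1, ζ, -ζ, -1 - ζ, -(-1 - ζ)} := by
    symm
    apply Finset.eq_of_subset_of_card_le
    · intro x hx
      simp only [Finset.mem_insert, Finset.mem_singleton] at hx
      rcases hx with rfl | rfl | rfl | rfl | rfl | rfl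
      · exact one_E S a
      · exact neg_E (one_E S a)
      · exact hζ
      · exact neg_E hζ
      · exact hz2
      · exact neg_E hz2
    · rw [card_E, h]
      rw [Finset.card_insert_of_notMem, Finset.card_insert_of_notMem,
        Finset.card_insert_of_notMem, Finset.card_insert_of_notMem,
        Finset.card_insert_of_notMem, Finset.card_singleton]
      · simp only [Finset.mem_singleton]
        exact key _ _ (by rw [t4, t5]; norm_num)
      · simp only [Finset.mem_singleton, Finset.mem_insert, not_or]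
        exact ⟨key _ _ (by rw [t3, t4]; norm_num), hne'⟩
      · simp only [Finset.mem_singleton, Finset.mem_insert, not_or]
        exact ⟨key _ _ (by rw [ht, t3]; norm_num), hne, key _ _ (by rw [ht, t5]; norm_num)⟩
      · simp only [Finset.mem_singleton, Finset.mem_insert, not_or]
        exact ⟨key _ _ (by rw [t2, ht]; norm_num), key _ _ (by rw [t2, t3]; norm_num),
          key _ _ (by rw [t2, t4]; norm_num), key _ _ (by rw [t2, t5]; norm_num)⟩
      · simp only [Finset.mem_singleton, Finset.mem_insert, not_or]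
        exact ⟨key _ _ (by rw [t1, t2]; norm_num), key _ _ (by rw [t1, ht]; norm_num),
          key _ _ (by rw [t1, t3]; norm_num), key _ _ (by rw [t1, t4]; norm_num),
          key _ _ (by rw [t1, t5]; norm_num)⟩
  rw [hset]
  rw [Finset.sum_insert, Finset.sum_insert, Finset.sum_insert, Finset.sum_insert,
    Finset.sum_insert, Finset.sum_singleton, hf, hf, hf]
  · ring
  · simp only [Finset.mem_singleton]
    exact key _ _ (by rw [t4, t5]; norm_num)
  · simp only [Finset.mem_singleton, Finset.mem_insert, not_or]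
    exact ⟨key _ _ (by rw [t3, t4]; norm_num), hne'⟩
  · simp only [Finset.mem_singleton, Finset.mem_insert, not_or]
    exact ⟨key _ _ (by rw [ht, t3]; norm_num), hne, key _ _ (by rw [ht, t5]; norm_num)⟩
  · simp only [Finset.mem_singleton, Finset.mem_insert, not_or]
    exact ⟨key _ _ (by rw [t2, ht]; norm_num), key _ _ (by rw [t2, t3]; norm_num),
      key _ _ (by rw [t2, t4]; norm_num), key _ _ (by rw [t2, t5]; norm_num)⟩
  · simp only [Finset.mem_singleton, Finset.mem_insert, not_or]
    exact ⟨key _ _ (by rw [t1, t2]; norm_num), key _ _ (by rw [t1, ht]; norm_num),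
      key _ _ (by rw [t1, t3]; norm_num), key _ _ (by rw [t1, t4]; norm_num),
      key _ _ (by rw [t1, t5]; norm_num)⟩

namespace Ty

variable {S : Sys B J} {R : R3 S} {φ : J → ℤ} {s : J → ZMod 3 × ZMod 3} (T : Ty R φ s)

include T

/-- both of type minus three -/
theorem case_A {a b : J} (ha : φ a = -3) (hb : φ b = -3) :
    ∑ w ∈ R.P9 a b, eta (R.red w).1 + 4 * ∑ u ∈ E S a b 1, hh (R.red u) =
      8 * (lam (s a) * lam (s b)) := by
  classical
  have hE1 : ((E S a b 1).card : ℤ) = 6 := by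
    have := T.rep_ab (a := a) (b := b)
    rw [ha, hb] at this
    linarith
  have hE9 : ((E S a b 9).card : ℤ) = 6 := by
    have := T.card_E9 a b
    linarith
  have hP9 : R.P9 a b = ∅ := by
    have h1 := R.card_nine a b
    rw [← Finset.card_eq_zero]
    omega
  rw [hP9, Finset.sum_empty, zero_add]
  have hraa : S.rep a a 1 = 6 := by
    have := T.rep1 a a
    rw [ha] at this
    omega
  obtain ⟨ζ, hζ, ht⟩ := exists_zeta S hraa
  have hζ' := mem_E S |>.mp hζ
  obtain ⟨w, hw⟩ : (E S a b 1).Nonempty := by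
    rw [← Finset.card_pos]; omega
  have hw' := mem_E S |>.mp hw
  have hkk : R.kap a * R.kap a = 1 := by
    have := R.kap_ne a
    generalize R.kap a = x at this ⊢
    revert x
    decide
  -- the norm of `ζ - 1`
  have hn : nr ζ = 1 := by
    have := hζ'.2
    unfold Qn at this
    rw [S.kaa, one_mul] at this
    rw [this]; norm_num
  have hπ : ζ - 1 ∈ E S a a 3 := by
    rw [mem_E]
    refine ⟨(S.I a a).sub_mem hζ'.1 (S.one a), ?_⟩
    unfold Qn
    rw [S.kaa, nr_sub, hn, nr_one, star_one, mul_one, ht]; norm_num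
  have hredζ : nm (R.red ζ) = 1 := by
    rw [R.nrm (m := 1) hζ'.1 (by rw [← Qn, hζ'.2]; norm_num), hkk]
    norm_num
  have hredζ1 : (R.red ζ).1.1 = 1 := by
    have h1 : star ζ = -1 - ζ := by rw [star_eq, ht, map_neg, map_one]
    have h2 := R.conj hζ'.1
    rw [S.kaa, map_one, one_mul, hkk, one_smul, h1,
      R.red_sub ((S.I a a).neg_mem (S.one a)) hζ'.1, R.red_neg (S.one a), R.one] at h2
    have h3 := congrArg (fun x : M9 => x.1.1) h2
    have h4 : -1 - (R.red ζ).1.1 = (R.red ζ).1.1 := h3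
    revert h4
    generalize (R.red ζ).1.1 = x
    revert x
    decide
  have hredζ2 : R.red ζ ≠ ((1, 0), (0, 0)) := by
    intro h0
    have h1 := R.red_sub hζ'.1 (S.one a)
    rw [R.one, h0, sub_self] at h1
    exact (R.r1_three hπ).2 h1
  have hsum : ∑ u ∈ E S a b 1, hh (R.red u) = ∑ g ∈ E S a a 1, hh (R.red (g * w)) := by
    symm
    refine Finset.sum_bij' (fun g _ => g * w) (fun u _ => u * sta S a b w) ?_ ?_ ?_ ?_ ?_
    · intro g hg
      have : g * w ∈ E S a b (1 * 1) := E_mul S hg hw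
      exact this
    · intro u hu
      have : u * sta S a b w ∈ E S a a (1 * 1) := E_mul S hu (E_sta S hw)
      exact this
    · intro g _
      rw [mul_assoc, mul_sta, hw'.2]; simp
    · intro u _
      rw [mul_assoc, sta_mul_self, hw'.2]; simp
    · intro g _; rfl
  have hmem : ∀ g ∈ E S a a 1, g * w ∈ S.I a b := fun g hg => S.mul (mem_E S |>.mp hg).1 hw'.1
  -- restrict to an even function
  have hsum2 : ∑ g ∈ E S a a 1, hh (R.red (g * w)) =
      ∑ g ∈ E S a a 1, (if g * w ∈ S.I a b then hh (R.red (g * w)) else 0) := by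
    refine Finset.sum_congr rfl fun g hg => ?_
    rw [if_pos (hmem g hg)]
  have heven : ∀ v : B, (if -v * w ∈ S.I a b then hh (R.red (-v * w)) else 0) =
      if v * w ∈ S.I a b then hh (R.red (v * w)) else 0 := by
    intro v
    have e : -v * w = -(v * w) := neg_mul v w
    rw [e]
    by_cases hv : v * w ∈ S.I a b
    · rw [if_pos hv, if_pos ((S.I a b).neg_mem hv), R.red_neg hv, hh_neg]
    · rw [if_neg hv, if_neg]
      intro h0
      have := (S.I a b).neg_mem h0
      rw [neg_neg] at this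
      exact hv this
  have hz1 : 1 * w ∈ S.I a b := hmem 1 (one_E S a)
  have hz2 : ζ * w ∈ S.I a b := hmem ζ hζ
  have hz3 : (-1 - ζ) * w ∈ S.I a b := by
    rw [sub_mul, neg_mul]
    exact (S.I a b).sub_mem ((S.I a b).neg_mem hz1) hz2
  rw [hsum, hsum2, units_six S hraa hζ ht _ heven, if_pos hz1, if_pos hz2, if_pos hz3]
  have e3 : R.red ((-1 - ζ) * w) = -R.red w - mm (R.red ζ) (R.red w) := by
    rw [sub_mul, neg_mul, one_mul, R.red_sub ((S.I a b).neg_mem hw'.1) hz2, R.red_neg hw'.1,
      R.mul hζ'.1 hw'.1]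
  rw [one_mul, e3, R.mul hζ'.1 hw'.1, h1 _ _ hredζ hredζ1 hredζ2 (R.red_ne_of_unit hw)]
  -- the element of norm three
  have hv : (ζ - 1) * w ∈ E S a b (3 * 1) := E_mul S hπ hw
  have hv' := mem_E S |>.mp hv
  have e4 : R.red ((ζ - 1) * w) = mm (R.red ζ) (R.red w) - R.red w := by
    rw [sub_mul, one_mul, R.red_sub hz2 hw'.1, R.mul hζ'.1 hw'.1]
  rw [← e4]
  have hr := R.r1_three hv
  rw [(a1 _ hr.1 hr.2).2.2]
  have hl : dl (R.red ((ζ - 1) * w)) = s a := by
    have : dl (R.red ((ζ - 1) * w)) ∈ R.DD a b := R.mem_DD.mpr ⟨_, hv, rfl⟩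
    rw [T.D1 a b hb, Finset.mem_singleton] at this
    exact this
  have hrr : dr (R.red ((ζ - 1) * w)) = s b := by
    have h5 := (R.dl_sta hv'.1 hr).1
    have : dl (R.red (sta S a b ((ζ - 1) * w))) ∈ R.DD b a := R.mem_DD.mpr ⟨_, E_sta S hv, rfl⟩
    rw [T.D1 b a ha, Finset.mem_singleton, h5] at this
    exact this
  rw [hl, hrr]
  ring

end Ty

/-- **Theorem.** -/
theorem R3.main {S : Sys B J} (R : R3 S) : ∃ e : J → ℤ, (∀ a, e a = 1 ∨ e a = -1) ∧
    ∀ a b, ∑ w ∈ E S a b 9, eta (R.red w).1 + 4 * ∑ u ∈ E S a b 1, hh (R.red u) =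
      8 * (e a * e b) := by
  obtain ⟨φ, s, T⟩ := exists_Ty R
  refine ⟨fun a => lam (s a), fun a => lam_pm _ (T.mem a), fun a b => ?_⟩
  rw [R.sum_nine]
  rcases T.phi a with ha | ha <;> rcases T.phi b with hb | hb
  · exact T.case_B ha hb
  · have h0 : (E S a b 1).card = 0 := by
      have := T.rep_ab (a := a) (b := b)
      rw [ha, hb] at this
      omega
    rw [T.case_C h0 ha hb, Finset.card_eq_zero.mp h0]
    simp
  · have h0 : (E S a b 1).card = 0 := by
      have := T.rep_ab (a := a) (b := b)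
      rw [ha, hb] at this
      omega
    rw [T.case_C h0 hb ha, Finset.card_eq_zero.mp h0]
    simp
  · exact T.case_A ha hb

end Vale.Agent.P014.H698
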