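import Vale.Agent.P014.H698.Corank

/-!
# FM6: the corank of `N(n)` for `n` in the family
-/

namespace Vale.Agent.P014.H698

open Finset Vale.Agent.P014.FM

theorem sg_inj {a b : ZMod 2} (h : sg a = sg b) : a = b := by
  rcases zmod2_cases a with rfl | rfl <;> rcases zmod2_cases b with rfl | rfl
  · rfl
  · rw [sg_zero, sg_one] at h; norm_num at h
  · rw [sg_zero, sg_one] at h; norm_num at h
  · rfl

theorem wP_recip' {p q : ℕ} (hp : p % 2 = 1) (hq : q % 2 = 1) (hpq : Nat.Coprime p q) :
    wP p q + wP q p = eP p * eP q := by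
  apply sg_inj
  rw [sg_add, sg_wP hp hq hpq, sg_wP hq hp hpq.symm]
  unfold H580.J eP
  have h1 : p % 4 = 1 ∨ p % 4 = 3 := by omega
  have h2 : q % 4 = 1 ∨ q % 4 = 3 := by omega
  have hpo := Nat.odd_iff.mpr hp
  have hqo := Nat.odd_iff.mpr hq
  have hsq : ((jacobiSym (q : ℤ) p : ℤ) : ℝ) * ((jacobiSym (q : ℤ) p : ℤ) : ℝ) = 1 := by
    have h3 := jac_pm (a := (q : ℤ)) (b := p) (by rw [Int.gcd_natCast_natCast]; exact hpq.symm)
    rcases h3 with h3 | h3 <;> rw [h3] <;> norm_num
  rcases h1 with h1 | h1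
  · rw [if_neg (by omega), zero_mul, sg_zero,
      jacobiSym.quadratic_reciprocity_one_mod_four h1 hqo]
    exact hsq
  · rw [if_pos h1, one_mul]
    rcases h2 with h2 | h2
    · rw [if_neg (by omega), sg_zero,
        ← jacobiSym.quadratic_reciprocity_one_mod_four h2 hpo]
      exact hsq
    · rw [if_pos h2, sg_one, jacobiSym.quadratic_reciprocity_three_mod_four h1 h2]
      push_cast
      rw [neg_mul, hsq]

section

variable {n : ℕ}

theorem dm_odd (h : IsDm n) : n % 2 = 1 := by have := h.2.1; omega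

theorem dm_cop (h : IsDm n) : Nat.Coprime n 17 := by
  by_contra hc
  have h1 := (jacobiSym.eq_zero_iff_not_coprime (a := (n : ℤ)) (b := 17)).mpr (by
    rw [show ((17 : ℕ) : ℤ) = ((17 : ℕ) : ℤ) from rfl, Int.gcd_natCast_natCast]
    exact hc)
  rw [h.2.2] at h1
  norm_num at h1

theorem sum_eP (hn : Squarefree n) (h4 : n % 4 = 3) : ∑ p : n.primeFactors, eP p = 1 := by
  apply sg_inj
  rw [sg_sum, sg_one]
  have h1 : ∏ p : n.primeFactors, sg (eP p) = ∏ p ∈ n.primeFactors, chi4 p := by
    rw [← Finset.prod_coe_sort n.primeFactors]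
    refine Finset.prod_congr rfl fun p _ => ?_
    refine sg_eP ?_
    by_contra hc
    have h2 : 2 ∣ (p : ℕ) := by omega
    have := h2.trans (Nat.dvd_of_mem_primeFactors p.2)
    omega
  rw [h1, ← chi4_prod, Nat.prod_primeFactors_of_squarefree hn]
  unfold chi4
  rw [if_neg (by omega), if_pos h4]

theorem sum_sP (hn : Squarefree n) (h17 : jacobiSym n 17 = -1) (hc : Nat.Coprime n 17) :
    ∑ p : n.primeFactors, sP p = 1 := by
  apply sg_inj
  rw [sg_sum, sg_one]
  have h1 : ∏ p : n.primeFactors, sg (sP p) = ∏ p ∈ n.primeFactors, J p 17 := by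
    rw [← Finset.prod_coe_sort n.primeFactors]
    refine Finset.prod_congr rfl fun p _ => ?_
    exact sg_sP (Nat.Coprime.coprime_dvd_left (Nat.dvd_of_mem_primeFactors p.2) hc)
  rw [h1, ← J_prod_left, Nat.prod_primeFactors_of_squarefree hn]
  unfold H580.J
  rw [h17]; norm_num

theorem NP_symm (i j : n.primeFactors ⊕ n.primeFactors) : NP n i j = NP n j i := by
  unfold NP NMat
  rcases i with i | i <;> rcases j with j | j
  · simp only [Matrix.fromBlocks_apply₁₁, Matrix.diagonal_apply]
    by_cases h : i = j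
    · subst h; rfl
    · rw [if_neg h, if_neg (Ne.symm h)]
  · simp only [Matrix.fromBlocks_apply₁₂, Matrix.fromBlocks_apply₂₁, Matrix.transpose_apply]
  · simp only [Matrix.fromBlocks_apply₁₂, Matrix.fromBlocks_apply₂₁, Matrix.transpose_apply]
  · simp only [Matrix.fromBlocks_apply₂₂, Matrix.diagonal_apply]
    by_cases h : i = j
    · subst h; rfl
    · rw [if_neg h, if_neg (Ne.symm h)]

theorem lap_transpose_mulVec' {I : Type*} [DecidableEq I] (w : I → I → ZMod 2) (T : Finset I)
    (X : T → ZMod 2) (p : T) :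
    (Lap w T).transpose.mulVec X p = ∑ q : T, (w p q * X p + w q p * X q) := by
  have h0 : ∑ r ∈ T.erase p, w p r = ∑ q ∈ Finset.univ.erase p, w p (q : I) := by
    refine (Finset.sum_bij (fun (q : T) _ => (q : I)) ?_ ?_ ?_ ?_).symm
    · intro q hq
      rw [Finset.mem_erase] at hq ⊢
      exact ⟨fun h => hq.1 (Subtype.ext h), q.2⟩
    · intro a _ b _ h
      exact Subtype.ext h
    · intro b hb
      rw [Finset.mem_erase] at hb
      exact ⟨⟨b, hb.2⟩, Finset.mem_erase.mpr ⟨fun h => hb.1 (congrArg Subtype.val h),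
        Finset.mem_univ _⟩, rfl⟩
    · intro a _; rfl
  unfold Matrix.mulVec dotProduct
  rw [← Finset.add_sum_erase _ _ (Finset.mem_univ p),
    ← Finset.add_sum_erase (Finset.univ : Finset T) (fun q : T => w p q * X p + w q p * X q)
      (Finset.mem_univ p)]
  simp only [Lap, Matrix.of_apply, Matrix.transpose_apply, if_true]
  rw [CharTwo.add_self_eq_zero, zero_add, h0, Finset.sum_mul, ← Finset.sum_add_distrib]
  refine Finset.sum_congr rfl fun q hq => ?_
  rw [if_neg (Finset.ne_of_mem_erase hq)]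

theorem NP_one (h : IsDm n) (i : n.primeFactors ⊕ n.primeFactors) :
    (NP n).mulVec (fun _ => 1) i = NP n i i := by
  have hodd := dm_odd h
  have hpo : ∀ p : n.primeFactors, (p : ℕ) % 2 = 1 := by
    intro p
    by_contra hc
    have h2 : 2 ∣ (p : ℕ) := by omega
    have := h2.trans (Nat.dvd_of_mem_primeFactors p.2)
    omega
  unfold NP NMat
  rw [Matrix.fromBlocks_mulVec]
  rcases i with p | p
  · simp only [Sum.elim_inl, Matrix.fromBlocks_apply₁₁, Matrix.diagonal_apply, if_true,
      Pi.add_apply, Matrix.mulVec_diagonal, Function.comp]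
    rw [lap_mulVec']
    rw [Finset.sum_eq_zero, mul_one, add_zero]
    intro q _
    simp only [Function.comp]
    rw [show (1 : ZMod 2) + 1 = 0 from by decide, mul_zero]
  · simp only [Sum.elim_inr, Matrix.fromBlocks_apply₂₂, Matrix.diagonal_apply, if_true,
      Pi.add_apply, Matrix.mulVec_diagonal, Function.comp]
    rw [lap_transpose_mulVec', mul_one]
    have h1 : ∑ q : n.primeFactors, (wP p q * 1 + wP q p * 1) = 0 := by
      rw [← Finset.add_sum_erase _ _ (Finset.mem_univ p), CharTwo.add_self_eq_zero, zero_add]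
      have h2 : ∀ q ∈ (Finset.univ : Finset n.primeFactors).erase p,
          wP p q * 1 + wP q p * 1 = eP p * eP q := by
        intro q hq
        rw [mul_one, mul_one]
        refine wP_recip' (hpo p) (hpo q) ?_
        rw [Nat.coprime_primes (Nat.prime_of_mem_primeFactors p.2)
          (Nat.prime_of_mem_primeFactors q.2)]
        intro hc
        exact (Finset.ne_of_mem_erase hq) (Subtype.ext hc.symm)
      rw [Finset.sum_congr rfl h2, ← Finset.mul_sum]
      have h3 := sum_eP h.1 h.2.1
      rw [← Finset.add_sum_erase _ _ (Finset.mem_univ p)] at h3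
      have h4 : ∑ q ∈ Finset.univ.erase p, eP (q : ℕ) = 1 + eP p := by
        rw [← h3, add_comm (eP (p : ℕ)), add_assoc, CharTwo.add_self_eq_zero, add_zero]
      rw [h4]
      rcases zmod2_cases (eP p) with h5 | h5 <;> rw [h5] <;> decide
    simp only [Function.comp]
    rw [h1, zero_add]

theorem card_ker_ge {n : ℕ} (h : IsDm n) (hdet : (NP n).det ≠ 1) :
    4 ≤ Nat.card {x // (NP n).mulVec x = 0} := by
  have hdet0 : (NP n).det = 0 := (zmod2_cases _).resolve_right hdet
  obtain ⟨x, hx, hNx⟩ := Matrix.exists_mulVec_eq_zero_iff.mpr hdet0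
  have hcard : Even (Fintype.card (n.primeFactors ⊕ n.primeFactors)) := by
    rw [Fintype.card_sum]; exact ⟨_, rfl⟩
  have hdiag : ∑ i, NP n i i * (1 : ZMod 2) = 0 := by
    simp only [mul_one]
    rw [Fintype.sum_sum_type]
    have h1 : ∑ p : n.primeFactors, NP n (Sum.inl p) (Sum.inl p) = ∑ p : n.primeFactors, sP p := by
      refine Finset.sum_congr rfl fun p _ => ?_
      simp [NP, NMat]
    have h2 : ∑ p : n.primeFactors, NP n (Sum.inr p) (Sum.inr p) = ∑ p : n.primeFactors, eP p := by
      refine Finset.sum_congr rfl fun p _ => ?_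
      simp [NP, NMat]
    rw [h1, h2, sum_eP h.1 h.2.1, sum_sP h.1 h.2.2 (dm_cop h)]
    decide
  obtain ⟨z, hz, hzx, hNz⟩ := exists_third_sym (NP n) hcard NP_symm (fun _ => 1) (NP_one h) hdiag
    hx hNx
  have hxz : (NP n).mulVec (x + z) = 0 := by rw [Matrix.mulVec_add, hNx, hNz, add_zero]
  have h0 : (NP n).mulVec 0 = 0 := Matrix.mulVec_zero _
  rw [Nat.card_eq_fintype_card]
  have hsub : ({⟨0, h0⟩, ⟨x, hNx⟩, ⟨z, hNz⟩, ⟨x + z, hxz⟩} :
      Finset {x // (NP n).mulVec x = 0}).card = 4 := by
    have hself : ∀ y : n.primeFactors ⊕ n.primeFactors → ZMod 2, y + y = 0 := by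
      intro y; funext i; exact CharTwo.add_self_eq_zero _
    have e1 : x + z ≠ 0 := by
      intro hc
      apply hzx
      have := congrArg (fun y => x + y) hc
      simp only [← add_assoc, hself, zero_add, add_zero] at this
      exact this
    have e2 : x + z ≠ x := by
      intro hc; apply hz; simpa using hc
    have e3 : x + z ≠ z := by
      intro hc; apply hx; simpa using hc
    rw [Finset.card_insert_of_notMem, Finset.card_insert_of_notMem, Finset.card_insert_of_notMem,
      Finset.card_singleton]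
    · simp only [Finset.mem_singleton, Subtype.mk.injEq]; exact e3.symm
    · simp only [Finset.mem_insert, Finset.mem_singleton, Subtype.mk.injEq, not_or]
      exact ⟨hzx.symm, e2.symm⟩
    · simp only [Finset.mem_insert, Finset.mem_singleton, Subtype.mk.injEq, not_or]
      exact ⟨hx.symm, hz.symm, e1.symm⟩
  rw [← hsub]
  exact Finset.card_le_univ _

end

end Vale.Agent.P014.H698
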