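import Vale.Agent.P014.H698.Tup

/-!
# FM6: the corank of `N(n)` is never one
-/

namespace Vale.Agent.P014.H698

open Finset Vale.Agent.P014.FM

theorem det_alt_ord {ι : Type*} [Fintype ι] [LinearOrder ι] (A : Matrix ι ι (ZMod 2))
    (hodd : Odd (Fintype.card ι)) (h0 : ∀ i, A i i = 0) (hs : ∀ i j, A i j = A j i) :
    A.det = 0 := by
  let B : Matrix ι ι ℤ := Matrix.of fun i j =>
    if i < j then ((A i j).val : ℤ) else if j < i then -((A i j).val : ℤ) else 0
  have hB : B.transpose = -B := by
    ext i j
    simp only [Matrix.transpose_apply, Matrix.neg_apply, B, Matrix.of_apply]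
    rcases lt_trichotomy i j with h | h | h
    · rw [if_neg (not_lt.mpr h.le), if_pos h, if_pos h, hs j i]
    · subst h; simp
    · rw [if_pos h, if_neg (not_lt.mpr h.le), if_pos h, hs j i]; simp
  have h1 : B.det = 0 := by
    have h2 : B.det = -B.det := by
      conv_lhs => rw [← Matrix.det_transpose, hB, Matrix.det_neg, hodd.neg_one_pow]
      ring
    omega
  have h3 : A = (Int.castRingHom (ZMod 2)).mapMatrix B := by
    ext i j
    simp only [RingHom.mapMatrix_apply, Matrix.map_apply, B, Matrix.of_apply]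
    rcases lt_trichotomy i j with h | h | h
    · rw [if_pos h]; simp
    · subst h; simp [h0]
    · rw [if_neg (not_lt.mpr h.le), if_pos h]; simp [CharTwo.neg_eq]
  rw [h3, ← RingHom.map_det, h1, map_zero]

theorem det_alt {ι : Type*} [Fintype ι] [DecidableEq ι] (A : Matrix ι ι (ZMod 2))
    (hodd : Odd (Fintype.card ι)) (h0 : ∀ i, A i i = 0) (hs : ∀ i j, A i j = A j i) :
    A.det = 0 := by
  have e := Fintype.equivFin ι
  have h1 := det_alt_ord (A.submatrix e.symm e.symm) (by rwa [Fintype.card_fin])
    (fun i => h0 _) (fun i j => hs _ _)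
  rwa [Matrix.det_submatrix_equiv_self] at h1

/-- the kernel of an alternating matrix of even size over the field with two elements is never
of order two -/
theorem exists_third {ι : Type*} [Fintype ι] [DecidableEq ι] (A : Matrix ι ι (ZMod 2))
    (heven : Even (Fintype.card ι)) (h0 : ∀ i, A i i = 0) (hs : ∀ i j, A i j = A j i)
    {x : ι → ZMod 2} (hx : x ≠ 0) (hAx : A.mulVec x = 0) :
    ∃ z : ι → ZMod 2, z ≠ 0 ∧ z ≠ x ∧ A.mulVec z = 0 := by
  obtain ⟨i, hi⟩ := Function.ne_iff.mp hx
  have hi1 : x i = 1 := (zmod2_cases (x i)).resolve_left hi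
  let M : Matrix {j // j ≠ i} {j // j ≠ i} (ZMod 2) := A.submatrix (fun j => j) (fun j => j)
  have hcard : Fintype.card {j // j ≠ i} = Fintype.card ι - 1 := by
    rw [Fintype.card_subtype_compl, Fintype.card_subtype_eq]
  have hpos : 0 < Fintype.card ι := Fintype.card_pos_iff.mpr ⟨i⟩
  have hodd : Odd (Fintype.card {j // j ≠ i}) := by
    rw [hcard]
    obtain ⟨m, hm⟩ := heven
    exact ⟨m - 1, by omega⟩
  have hdet : M.det = 0 := det_alt M hodd (fun j => h0 _) (fun j k => hs _ _)
  obtain ⟨v, hv, hMv⟩ := Matrix.exists_mulVec_eq_zero_iff.mpr hdet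
  let z : ι → ZMod 2 := fun j => if h : j ≠ i then v ⟨j, h⟩ else 0
  have hz : ∀ j : {j // j ≠ i}, z j = v j := fun j => dif_pos j.2
  have hzi : z i = 0 := dif_neg (by simp)
  have hAz : ∀ j, j ≠ i → A.mulVec z j = 0 := by
    intro j hj
    have h1 := congrFun hMv ⟨j, hj⟩
    have h2 : A.mulVec z j = M.mulVec v ⟨j, hj⟩ := by
      unfold Matrix.mulVec dotProduct
      rw [Fintype.sum_eq_add_sum_subtype_ne _ i, hzi, mul_zero, zero_add]
      refine Finset.sum_congr rfl fun k _ => ?_
      rw [hz k]; rfl
    rw [h2, h1]; rfl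
  have hAs : A.transpose = A := by ext a b; exact hs b a
  have hAzi : A.mulVec z i = 0 := by
    have h1 : dotProduct x (A.mulVec z) = 0 := by
      rw [Matrix.dotProduct_mulVec, ← Matrix.mulVec_transpose, hAs, hAx, zero_dotProduct]
    unfold dotProduct at h1
    rw [Fintype.sum_eq_add_sum_subtype_ne _ i, hi1, one_mul] at h1
    rw [Finset.sum_eq_zero, add_zero] at h1
    · exact h1
    · intro j _; rw [hAz j j.2, mul_zero]
  refine ⟨z, ?_, ?_, ?_⟩
  · intro hc
    apply hv
    funext j
    rw [← hz j, hc]; rfl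
  · intro hc
    have := congrFun hc i
    rw [hzi, hi1] at this
    exact absurd this (by decide)
  · funext j
    by_cases hj : j = i
    · subst hj; exact hAzi
    · exact hAz j hj

/-- symmetric matrices with a characteristic vector -/
theorem exists_third_sym {ι : Type*} [Fintype ι] [DecidableEq ι] (N : Matrix ι ι (ZMod 2))
    (heven : Even (Fintype.card ι)) (hs : ∀ i j, N i j = N j i) (v : ι → ZMod 2)
    (hv : ∀ i, N.mulVec v i = N i i) (hv2 : ∑ i, N i i * v i = 0)
    {x : ι → ZMod 2} (hx : x ≠ 0) (hNx : N.mulVec x = 0) :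
    ∃ z : ι → ZMod 2, z ≠ 0 ∧ z ≠ x ∧ N.mulVec z = 0 := by
  have hNs : N.transpose = N := by ext a b; exact hs b a
  let A : Matrix ι ι (ZMod 2) := Matrix.of fun i j => N i j + N i i * N j j
  have hA : ∀ z : ι → ZMod 2, ∀ i, A.mulVec z i = N.mulVec z i + N i i * ∑ j, N j j * z j := by
    intro z i
    unfold Matrix.mulVec dotProduct
    rw [Finset.mul_sum, ← Finset.sum_add_distrib]
    refine Finset.sum_congr rfl fun j _ => ?_
    simp only [A, Matrix.of_apply]; ring
  have hd : ∀ z : ι → ZMod 2, ∑ j, N j j * z j = dotProduct v (N.mulVec z) := by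
    intro z
    rw [Matrix.dotProduct_mulVec, ← Matrix.mulVec_transpose, hNs]
    unfold dotProduct
    refine Finset.sum_congr rfl fun j _ => ?_
    rw [hv]
  have hker : ∀ z : ι → ZMod 2, A.mulVec z = 0 ↔ N.mulVec z = 0 := by
    intro z
    constructor
    · intro h
      rcases zmod2_cases (∑ j, N j j * z j) with h1 | h1
      · funext i
        have h2 := hA z i
        rw [h, h1, mul_zero, add_zero] at h2
        exact h2.symm
      · exfalso
        have h2 : N.mulVec (z + v) = 0 := by
          funext i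
          have h3 := hA z i
          rw [h, h1, mul_one] at h3
          rw [Matrix.mulVec_add, Pi.add_apply, hv]
          exact h3.symm
        have h4 := hd (z + v)
        rw [h2, dotProduct_zero] at h4
        simp only [Pi.add_apply, mul_add, Finset.sum_add_distrib] at h4
        rw [h1, hv2, add_zero] at h4
        exact absurd h4 (by decide)
    · intro h
      funext i
      rw [hA z i, hd z, h, dotProduct_zero, mul_zero, add_zero]
  obtain ⟨z, h1, h2, h3⟩ := exists_third A heven
    (fun i => by
      simp only [A, Matrix.of_apply]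
      rcases zmod2_cases (N i i) with h | h <;> rw [h] <;> decide)
    (fun i j => by simp only [A, Matrix.of_apply]; rw [hs i j, mul_comm])
    hx ((hker x).mpr hNx)
  exact ⟨z, h1, h2, (hker z).mp h3⟩

end Vale.Agent.P014.H698
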