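import Vale.Agent.P014.H698.CorNP

/-!
# FM6: lower bound for the size of the family and the final deduction
-/

namespace Vale.Agent.P014.H698

open Finset Vale.Agent.P014.FM

theorem card_sq_dvd (M k : ℕ) (hk : Nat.Coprime k 68) (hk0 : 0 < k) :
    ((range M).filter fun m => k ^ 2 ∣ 68 * m + 3).card ≤ M / k ^ 2 + 1 := by
  have hk2 : 0 < k ^ 2 := by positivity
  rw [← Finset.card_range (M / k ^ 2 + 1)]
  apply Finset.card_le_card_of_injOn (fun m => m / k ^ 2)
  · intro m hm
    rw [Finset.mem_coe, Finset.mem_filter, Finset.mem_range] at hm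
    rw [Finset.mem_coe, Finset.mem_range]
    exact Nat.lt_succ_of_le (Nat.div_le_div_right hm.1.le)
  · intro a ha b hb hab
    rw [Finset.mem_coe, Finset.mem_filter] at ha hb
    simp only at hab
    have hcop : IsCoprime ((k ^ 2 : ℕ) : ℤ) 68 := by
      have := (Nat.isCoprime_iff_coprime.mpr (Nat.Coprime.pow_left 2 hk))
      exact_mod_cast this
    have h1 : ((k ^ 2 : ℕ) : ℤ) ∣ 68 * ((a : ℤ) - b) := by
      have h2 : ((k ^ 2 : ℕ) : ℤ) ∣ ((68 * a + 3 : ℕ) : ℤ) := by exact_mod_cast ha.2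
      have h3 : ((k ^ 2 : ℕ) : ℤ) ∣ ((68 * b + 3 : ℕ) : ℤ) := by exact_mod_cast hb.2
      have h4 := dvd_sub h2 h3
      have h5 : ((68 * a + 3 : ℕ) : ℤ) - ((68 * b + 3 : ℕ) : ℤ) = 68 * ((a : ℤ) - b) := by
        push_cast; ring
      rwa [h5] at h4
    have h2 : ((k ^ 2 : ℕ) : ℤ) ∣ (a : ℤ) - b := hcop.dvd_of_dvd_mul_left h1
    have h3 : a ≡ b [MOD k ^ 2] := by
      rw [Nat.modEq_iff_dvd]
      have := dvd_neg.mpr h2
      rwa [neg_sub] at this
    have h4 : a % k ^ 2 = b % k ^ 2 := h3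
    rw [← Nat.div_add_mod a (k ^ 2), ← Nat.div_add_mod b (k ^ 2), h4, hab]

theorem sum_odd_sq (K : ℕ) : ∑ j ∈ range K, (1 : ℝ) / (2 * (j + 1 : ℝ) + 1) ^ 2 ≤
    1 / 4 - 1 / (4 * (K + 1 : ℝ)) := by
  induction K with
  | zero => norm_num
  | succ K ih =>
    rw [Finset.sum_range_succ]
    have hK : (0 : ℝ) ≤ K := Nat.cast_nonneg K
    have h1 : (1 : ℝ) / (2 * (K + 1 : ℝ) + 1) ^ 2 ≤ 1 / (4 * (K + 1 : ℝ)) - 1 / (4 * (K + 2 : ℝ)) := by
      rw [div_sub_div _ _ (by positivity) (by positivity), div_le_div_iff₀ (by positivity)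
        (by positivity)]
      nlinarith [sq_nonneg (K : ℝ), mul_nonneg hK hK]
    push_cast
    have h2 : (4 : ℝ) * (K + 1 + 1) = 4 * (K + 2) := by ring
    rw [h2]
    linarith

theorem bad_card (M X : ℕ) (hX : 68 * M ≤ X + 65) :
    (((range M).filter fun m => ¬ Squarefree (68 * m + 3)).card : ℝ) ≤
      (M : ℝ) / 4 + (Nat.sqrt X : ℝ) := by
  set K := Nat.sqrt X with hK
  have hsub : ((range M).filter fun m => ¬ Squarefree (68 * m + 3)) ⊆
      (range K).biUnion fun j => if Nat.Coprime (2 * (j + 1) + 1) 68 then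
        (range M).filter fun m => (2 * (j + 1) + 1) ^ 2 ∣ 68 * m + 3 else ∅ := by
    intro m hm
    rw [Finset.mem_filter, Finset.mem_range] at hm
    obtain ⟨hmM, hsq⟩ := hm
    rw [Nat.squarefree_iff_prime_squarefree] at hsq
    push Not at hsq
    obtain ⟨p, hp, hpd⟩ := hsq
    have hpd1 : p ∣ 68 * m + 3 := (dvd_mul_right p p).trans hpd
    have hp2 : p ≠ 2 := by rintro rfl; omega
    have hodd := hp.eq_two_or_odd.resolve_left hp2
    have hp3 := hp.two_le
    have hp17 : p ≠ 17 := by rintro rfl; omega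
    rw [Finset.mem_biUnion]
    have hle : p * p ≤ X := by
      have h1 := Nat.le_of_dvd (by omega) hpd
      omega
    have hpK : p ≤ K := Nat.le_sqrt.mpr hle
    refine ⟨(p - 3) / 2, ?_, ?_⟩
    · rw [Finset.mem_range]; omega
    · have h1 : 2 * ((p - 3) / 2 + 1) + 1 = p := by omega
      rw [h1]
      have h2 : Nat.Coprime p 68 := by
        rw [show (68 : ℕ) = 2 ^ 2 * 17 by norm_num]
        apply Nat.Coprime.mul_right
        · exact Nat.Coprime.pow_right 2 ((Nat.coprime_primes hp Nat.prime_two).mpr hp2)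
        · exact (Nat.coprime_primes hp (by norm_num)).mpr hp17
      rw [if_pos h2, Finset.mem_filter, Finset.mem_range, sq]
      exact ⟨hmM, hpd⟩
  have h1 := Finset.card_le_card hsub
  have h2 := h1.trans Finset.card_biUnion_le
  have h3 : ∀ j ∈ range K, (((if Nat.Coprime (2 * (j + 1) + 1) 68 then
        (range M).filter fun m => (2 * (j + 1) + 1) ^ 2 ∣ 68 * m + 3 else ∅ :
          Finset ℕ).card : ℕ) : ℝ) ≤ M * (1 / (2 * (j + 1 : ℝ) + 1) ^ 2) + 1 := by
    intro j _
    split_ifs with h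
    · have h4 := card_sq_dvd M _ h (by omega)
      have h5 : (((M / (2 * (j + 1) + 1) ^ 2 + 1 : ℕ)) : ℝ) ≤
          M * (1 / (2 * (j + 1 : ℝ) + 1) ^ 2) + 1 := by
        push_cast
        have h6 := @Nat.cast_div_le ℝ _ _ _ M ((2 * (j + 1) + 1) ^ 2)
        push_cast at h6
        rw [mul_one_div]
        linarith
      exact le_trans (by exact_mod_cast h4) h5
    · rw [Finset.card_empty]
      push_cast
      positivity
  calc (((range M).filter fun m => ¬ Squarefree (68 * m + 3)).card : ℝ)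
      ≤ ((∑ j ∈ range K, (if Nat.Coprime (2 * (j + 1) + 1) 68 then
        (range M).filter fun m => (2 * (j + 1) + 1) ^ 2 ∣ 68 * m + 3 else ∅ :
          Finset ℕ).card : ℕ) : ℝ) := by exact_mod_cast h2
    _ = ∑ j ∈ range K, (((if Nat.Coprime (2 * (j + 1) + 1) 68 then
        (range M).filter fun m => (2 * (j + 1) + 1) ^ 2 ∣ 68 * m + 3 else ∅ :
          Finset ℕ).card : ℕ) : ℝ) := by push_cast; rfl
    _ ≤ ∑ j ∈ range K, (M * (1 / (2 * (j + 1 : ℝ) + 1) ^ 2) + 1) := Finset.sum_le_sum h3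
    _ = M * ∑ j ∈ range K, (1 / (2 * (j + 1 : ℝ) + 1) ^ 2) + K := by
        rw [Finset.sum_add_distrib, Finset.mul_sum]; simp
    _ ≤ (M : ℝ) / 4 + K := by
        have h7 := sum_odd_sq K
        have h8 : (0 : ℝ) < 1 / (4 * (K + 1 : ℝ)) := by positivity
        have h9 : (0 : ℝ) ≤ M := Nat.cast_nonneg M
        nlinarith

theorem isDm_of (m : ℕ) (h : Squarefree (68 * m + 3)) : IsDm (68 * m + 3) := by
  refine ⟨h, by omega, ?_⟩
  rw [jacobiSym.mod_left]
  have : (((68 * m + 3 : ℕ) : ℤ)) % ((17 : ℕ) : ℤ) = 3 := by omega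
  rw [this]
  norm_num

/-- the family has positive lower density -/
theorem Dm_card_ge (X : ℕ) (hX : 1000000 ≤ X) : (X : ℝ) / 200 ≤ (Dm X).card := by
  classical
  set M := (X - 3) / 68 + 1 with hM
  have hM1 : 68 * M ≤ X + 65 := by omega
  have hM2 : X ≤ 68 * M + 3 := by omega
  have hbad := bad_card M X hM1
  have hsplit : ((range M).filter fun m => Squarefree (68 * m + 3)).card +
      ((range M).filter fun m => ¬ Squarefree (68 * m + 3)).card = M := by
    rw [Finset.card_filter_add_card_filter_not, Finset.card_range]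
  have hinj : ((range M).filter fun m => Squarefree (68 * m + 3)).card ≤ (Dm X).card := by
    apply Finset.card_le_card_of_injOn (fun m => 68 * m + 3)
    · intro m hm
      rw [Finset.mem_coe, Finset.mem_filter, Finset.mem_range] at hm
      rw [Finset.mem_coe]
      unfold Dm
      rw [Finset.mem_filter, Finset.mem_range]
      have h5 : 68 * m + 3 < X + 1 := by
        have := hm.1
        omega
      exact ⟨h5, isDm_of m hm.2⟩
    · intro a _ b _ hab
      simp only at hab
      omega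
  have hs1 : Nat.sqrt X * Nat.sqrt X ≤ X := Nat.sqrt_le X
  have hs2 : 1000 ≤ Nat.sqrt X := Nat.le_sqrt.mpr (by omega)
  have hs3 : (1000 : ℝ) * Nat.sqrt X ≤ X := by
    have : 1000 * Nat.sqrt X ≤ X := le_trans (Nat.mul_le_mul_right _ hs2) hs1
    exact_mod_cast this
  have h1 : (((range M).filter fun m => Squarefree (68 * m + 3)).card : ℝ) +
      (((range M).filter fun m => ¬ Squarefree (68 * m + 3)).card : ℝ) = M := by
    exact_mod_cast hsplit
  have h2 : (((range M).filter fun m => Squarefree (68 * m + 3)).card : ℝ) ≤ (Dm X).card := by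
    exact_mod_cast hinj
  have h3 : (X : ℝ) ≤ 68 * M + 3 := by exact_mod_cast hM2
  have h4 : (1000000 : ℝ) ≤ X := by exact_mod_cast hX
  linarith

open Classical in
/-- **the final deduction** -/
theorem proportion
    (hmain : ∀ ε : ℝ, 0 < ε → ∃ X0 : ℕ, ∀ X : ℕ, X0 ≤ X →
      ∑ n ∈ Dm X, kerAv n ≤ 3 * ((Dm X).card : ℝ) + ε * X) :
    ∀ ε : ℝ, 0 < ε → ∃ X0 : ℕ, ∀ X : ℕ, X0 ≤ X →
      (1 / 3 - ε) * ((Dm X).card : ℝ) ≤ (((Dm X).filter fun n => (NP n).det = 1).card : ℝ) := by
  intro ε hε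
  obtain ⟨X0, hX0⟩ := hmain (ε / 200) (by positivity)
  refine ⟨max X0 1000000, fun X hX => ?_⟩
  have h1 := hX0 X ((le_max_left _ _).trans hX)
  have h2 := Dm_card_ge X ((le_max_right _ _).trans hX)
  have h3 : ((Dm X).filter fun n => (NP n).det = 1).card +
      ((Dm X).filter fun n => ¬ (NP n).det = 1).card = (Dm X).card :=
    Finset.card_filter_add_card_filter_not _
  have h3' : (((Dm X).filter fun n => (NP n).det = 1).card : ℝ) +
      (((Dm X).filter fun n => ¬ (NP n).det = 1).card : ℝ) = (Dm X).card := by exact_mod_cast h3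
  have hD : ∀ n ∈ Dm X, IsDm n := by
    intro n hn
    unfold Dm at hn
    exact (Finset.mem_filter.mp hn).2
  have h4 : (((Dm X).filter fun n => (NP n).det = 1).card : ℝ) +
      4 * (((Dm X).filter fun n => ¬ (NP n).det = 1).card : ℝ) ≤ ∑ n ∈ Dm X, kerAv n := by
    rw [← Finset.sum_filter_add_sum_filter_not (Dm X) (fun n => (NP n).det = 1)]
    refine add_le_add ?_ ?_
    · rw [Finset.card_eq_sum_ones]
      push_cast
      refine Finset.sum_le_sum fun n hn => ?_
      have hn' := hD n (Finset.mem_filter.mp hn).1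
      rw [← card_ker_eq hn'.1 (dm_odd hn') (dm_cop hn')]
      have : 0 < Nat.card {x // (NP n).mulVec x = 0} := by
        rw [Nat.card_eq_fintype_card]
        exact Fintype.card_pos_iff.mpr ⟨⟨0, Matrix.mulVec_zero _⟩⟩
      exact_mod_cast this
    · rw [Finset.card_eq_sum_ones]
      push_cast
      rw [Finset.mul_sum]
      refine Finset.sum_le_sum fun n hn => ?_
      have hn' := hD n (Finset.mem_filter.mp hn).1
      rw [← card_ker_eq hn'.1 (dm_odd hn') (dm_cop hn'), mul_one]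
      have := card_ker_ge hn' (Finset.mem_filter.mp hn).2
      exact_mod_cast this
  have h5 : (0 : ℝ) ≤ (Dm X).card := Nat.cast_nonneg _
  nlinarith

end Vale.Agent.P014.H698
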