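import Vale.Agent.P014.NMat
import Vale.Agent.P014.H580.FMDefs

/-!
# FM6: the number of kernel vectors of `N(n)` as a sum over factorisations, linear algebra
-/

namespace Vale.Agent.P014.H698

open Finset Vale.Agent.P014.FM

theorem Phi_self (u : Idx) : Phi u u = 0 := by
  unfold Phi
  rw [CharTwo.add_self_eq_zero, CharTwo.add_self_eq_zero]; ring

/-- the sign -/
noncomputable def sg (a : ZMod 2) : ℝ := if a = 0 then 1 else -1

theorem sg_zero : sg 0 = 1 := if_pos rfl

theorem sg_one : sg 1 = -1 := if_neg (by decide)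

theorem zmod2_cases (a : ZMod 2) : a = 0 ∨ a = 1 := by
  revert a; decide

theorem sg_add (a b : ZMod 2) : sg (a + b) = sg a * sg b := by
  rcases zmod2_cases a with rfl | rfl <;> rcases zmod2_cases b with rfl | rfl
  · rw [add_zero, sg_zero, one_mul]
  · rw [zero_add, sg_zero, one_mul]
  · rw [add_zero, sg_zero, mul_one]
  · rw [show (1 : ZMod 2) + 1 = 0 from by decide, sg_zero, sg_one]; norm_num

theorem sg_sum {ι : Type*} (s : Finset ι) (f : ι → ZMod 2) :
    sg (∑ i ∈ s, f i) = ∏ i ∈ s, sg (f i) := by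
  classical
  induction s using Finset.induction_on with
  | empty => simp [sg_zero]
  | insert i s hi ih => rw [Finset.sum_insert hi, Finset.prod_insert hi, sg_add, ih]

theorem sum_sg_mul (z : ZMod 2) : ∑ a : ZMod 2, sg (a * z) = if z = 0 then 2 else 0 := by
  have h : ∀ f : ZMod 2 → ℝ, ∑ a : ZMod 2, f a = f 0 + f 1 := fun f => Fin.sum_univ_two f
  rw [h, zero_mul, one_mul, sg_zero]
  rcases zmod2_cases z with rfl | rfl
  · rw [sg_zero, if_pos rfl]; norm_num
  · rw [sg_one, if_neg (by decide)]; norm_num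

theorem sum_sg_linear {ι : Type*} [Fintype ι] [DecidableEq ι] (z : ι → ZMod 2) :
    ∑ y : ι → ZMod 2, sg (dotProduct y z) = if z = 0 then 2 ^ Fintype.card ι else 0 := by
  have h1 : ∀ y : ι → ZMod 2, sg (dotProduct y z) = ∏ i, sg (y i * z i) := by
    intro y; unfold dotProduct; rw [sg_sum]
  simp_rw [h1]
  have h2 := Finset.prod_univ_sum (fun _ : ι => (Finset.univ : Finset (ZMod 2)))
    (fun i a => sg (a * z i))
  rw [Fintype.piFinset_univ] at h2
  rw [← h2]
  simp_rw [sum_sg_mul]
  split_ifs with hz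
  · subst hz
    simp
  · obtain ⟨i, hi⟩ := Function.ne_iff.mp hz
    exact Finset.prod_eq_zero (Finset.mem_univ i) (if_neg hi)

/-- the double sum counts the kernel -/
theorem sum_sum_sg {ι κ : Type*} [Fintype ι] [Fintype κ] [DecidableEq ι] [DecidableEq κ]
    (A : Matrix κ ι (ZMod 2)) :
    ∑ x : ι → ZMod 2, ∑ y : κ → ZMod 2, sg (dotProduct y (A.mulVec x)) =
      2 ^ Fintype.card κ * (Nat.card {x : ι → ZMod 2 // A.mulVec x = 0} : ℝ) := by
  simp_rw [sum_sg_linear]
  rw [← Finset.sum_filter, Finset.sum_const, nsmul_eq_mul, mul_comm, Nat.card_eq_fintype_card,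
    Fintype.card_subtype]

theorem lap_mulVec' {I : Type*} [DecidableEq I] (w : I → I → ZMod 2) (T : Finset I)
    (X : T → ZMod 2) (p : T) :
    (Lap w T).mulVec X p = ∑ q : T, w p q * (X p + X q) := by
  have h0 : ∑ r ∈ T.erase p, w p r = ∑ q ∈ Finset.univ.erase p, w p (q : I) := by
    refine (Finset.sum_bij (fun (q : T) _ => (q : I)) ?_ ?_ ?_ ?_).symm
    · intro q hq
      rw [Finset.mem_erase] at hq ⊢
      exact ⟨fun h => hq.1 (Subtype.ext h), q.2⟩
    · intro a _ b _ h
      exact Subtype.ext h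
    · intro b hb
      rw [Finset.mem_erase] at hb
      exact ⟨⟨b, hb.2⟩, Finset.mem_erase.mpr ⟨fun h => hb.1 (congrArg Subtype.val h),
        Finset.mem_univ _⟩, rfl⟩
    · intro a _; rfl
  unfold Matrix.mulVec dotProduct
  rw [← Finset.add_sum_erase _ _ (Finset.mem_univ p),
    ← Finset.add_sum_erase (Finset.univ : Finset T) (fun q : T => w p q * (X p + X q))
      (Finset.mem_univ p)]
  simp only [Lap, Matrix.of_apply, if_true]
  rw [CharTwo.add_self_eq_zero, mul_zero, zero_add, h0, Finset.sum_mul, ← Finset.sum_add_distrib]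
  refine Finset.sum_congr rfl fun q hq => ?_
  rw [if_neg (Finset.ne_of_mem_erase hq).symm]
  ring

/-- the quadratic expression -/
theorem quad_eq {I : Type*} [DecidableEq I] (s e : I → ZMod 2) (w : I → I → ZMod 2)
    (T : Finset I) (c : T → Idx) :
    dotProduct (Sum.elim (fun p => (c p).2.1) (fun p => (c p).2.2))
      ((NMat s e w T).mulVec (Sum.elim (fun p => (c p).1.1) (fun p => (c p).1.2))) =
    ∑ p : T, (s p * e17 (c p) + e p * e4 (c p)) +
      ∑ p : T, ∑ q : T, w p q * Phi (c p) (c q) := by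
  have h1 : dotProduct (fun p => (c p).2.2)
      ((Lap w T).transpose.mulVec (fun p => (c p).1.1)) =
      dotProduct (fun p => (c p).1.1) ((Lap w T).mulVec (fun p => (c p).2.2)) := by
    rw [Matrix.dotProduct_mulVec, Matrix.vecMul_transpose, dotProduct_comm]
  unfold NMat
  rw [Matrix.fromBlocks_mulVec, sumElim_dotProduct_sumElim, dotProduct_add, dotProduct_add]
  simp only [Sum.elim_comp_inl, Sum.elim_comp_inr]
  rw [h1]
  have h2 : ∀ (X Y Z : T → ZMod 2), dotProduct X ((Matrix.diagonal Y).mulVec Z) =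
      ∑ p : T, Y p * (Z p * X p) := by
    intro X Y Z
    unfold dotProduct
    refine Finset.sum_congr rfl fun p _ => ?_
    rw [Matrix.mulVec_diagonal]; ring
  rw [h2, h2]
  have h3 : ∀ (X Z : T → ZMod 2), dotProduct X ((Lap w T).mulVec Z) =
      ∑ p : T, ∑ q : T, w p q * (X p * (Z p + Z q)) := by
    intro X Z
    unfold dotProduct
    refine Finset.sum_congr rfl fun p _ => ?_
    rw [lap_mulVec', Finset.mul_sum]
    refine Finset.sum_congr rfl fun q _ => ?_
    ring
  rw [h3, h3]
  have h4 : ∑ p : T, ∑ q : T, w p q * Phi (c p) (c q) =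
      ∑ p : T, ∑ q : T, w p q * ((c p).2.1 * ((c p).1.2 + (c q).1.2)) +
      ∑ p : T, ∑ q : T, w p q * ((c p).1.1 * ((c p).2.2 + (c q).2.2)) := by
    rw [← Finset.sum_add_distrib]
    refine Finset.sum_congr rfl fun p _ => ?_
    rw [← Finset.sum_add_distrib]
    refine Finset.sum_congr rfl fun q _ => ?_
    unfold Phi; ring
  rw [h4, Finset.sum_add_distrib]
  unfold e17 e4
  ring

/-- pairs of vectors and colourings -/
def colEquiv (T : Type*) : (T → Idx) ≃ ((T ⊕ T → ZMod 2) × (T ⊕ T → ZMod 2)) where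
  toFun c := (Sum.elim (fun p => (c p).1.1) (fun p => (c p).1.2),
    Sum.elim (fun p => (c p).2.1) (fun p => (c p).2.2))
  invFun z := fun p => ((z.1 (Sum.inl p), z.1 (Sum.inr p)), (z.2 (Sum.inl p), z.2 (Sum.inr p)))
  left_inv c := by funext p; rfl
  right_inv z := by
    refine Prod.ext ?_ ?_
    · funext i; rcases i with i | i <;> rfl
    · funext i; rcases i with i | i <;> rfl

/-- the number of kernel vectors as a sum over colourings -/
theorem card_ker_colour {I : Type*} [DecidableEq I] (s e : I → ZMod 2) (w : I → I → ZMod 2)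
    (T : Finset I) :
    (4 : ℝ) ^ T.card * (Nat.card {x : T ⊕ T → ZMod 2 // (NMat s e w T).mulVec x = 0} : ℝ) =
    ∑ c : T → Idx, (∏ p : T, sg (s p * e17 (c p)) * sg (e p * e4 (c p))) *
      ∏ p : T, ∏ q : T, sg (w p q * Phi (c p) (c q)) := by
  have h1 := sum_sum_sg (NMat s e w T)
  rw [← Fintype.sum_prod_type', ← (colEquiv T).sum_comp, Fintype.card_sum, Fintype.card_coe,
    ← two_mul, pow_mul, show (2 : ℝ) ^ 2 = 4 by norm_num] at h1
  rw [← h1]
  refine Finset.sum_congr rfl fun c _ => ?_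
  have h2 := quad_eq s e w T c
  show sg _ = _
  simp only [colEquiv, Equiv.coe_fn_mk]
  rw [h2, sg_add, sg_sum, sg_sum]
  congr 1
  · refine Finset.prod_congr rfl fun p _ => ?_
    rw [sg_add]
  · refine Finset.prod_congr rfl fun p _ => ?_
    rw [sg_sum]

end Vale.Agent.P014.H698
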