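import Vale.Agent.P014.H698.R3

/-!
# Directions of the elements of norm three
-/

namespace Vale.Agent.P014.H698

open Vale.Agent.P014.H70 Vale.Agent.P014.H70.QA

set_option linter.unusedSectionVars false

variable {B : Type*} [Ring B] [Nontrivial B] [Algebra ℚ B] [StarRing B] [QA B] {J : Type*}

theorem neg_mm : ∀ x y : M9, mm (-x) y = -mm x y := by
  intro x y
  unfold mm m9 c9
  ext <;> simp <;> ring

namespace R3

variable {S : Sys B J} (R : R3 S)

/-- number of elements of norm three with given left direction -/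
noncomputable def cnt (a c : J) (z : ZMod 3 × ZMod 3) : ℕ :=
  ((E S a c 3).filter fun v => dl (R.red v) = z).card

theorem dl_mem {a c : J} {v : B} (hv : v ∈ E S a c 3) : dl (R.red v) ∈ mu4 :=
  (a1 _ (R.r1_three hv).1 (R.r1_three hv).2).1

theorem sum_three {M : Type*} [AddCommMonoid M] (a c : J) (g : ZMod 3 × ZMod 3 → M) :
    ∑ v ∈ E S a c 3, g (dl (R.red v)) = ∑ z ∈ mu4, R.cnt a c z • g z := by
  classical
  rw [← Finset.sum_fiberwise_of_maps_to (s := E S a c 3) (t := mu4) (g := fun v => dl (R.red v))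
    (fun v hv => R.dl_mem hv)]
  refine Finset.sum_congr rfl fun z _ => ?_
  rw [Finset.sum_congr rfl (g := fun _ => g z) (fun v hv => by
    rw [(Finset.mem_filter.mp hv).2]), Finset.sum_const]
  rfl

/-- left multiplication by `u`, of norm three -/
theorem red_ne_of_unit {a b : J} {w : B} (hw : w ∈ E S a b 1) : nm (R.red w) ≠ 0 :=
  R.nm_ne hw (by norm_num)

theorem dl_mul_unit {a b c : J} {v w : B} (hv : v ∈ E S a c 3) (hw : w ∈ E S c b 1) :
    v * w ∈ E S a b 3 ∧ dl (R.red (v * w)) = dl (R.red v) := by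
  have h1 : v * w ∈ E S a b (3 * 1) := E_mul S hv hw
  refine ⟨h1, ?_⟩
  rw [R.mul (mem_E S |>.mp hv).1 (mem_E S |>.mp hw).1]
  exact (d1 _ _ (R.r1_three hv) (R.red_ne_of_unit hw)).2

/-- two elements of norm three with the same left direction -/
theorem unit_of_dl {a c c' : J} {v v' : B} (hv : v ∈ E S a c 3) (hv' : v' ∈ E S a c' 3)
    (h : dl (R.red v) = dl (R.red v')) : ∃ w ∈ E S c c' 1, v' = v * w := by
  have h1 := (b1 _ _ (R.r1_three hv) (R.r1_three hv')).mpr h
  exact R.factor (m := 1) hv hv' h1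

theorem cnt_eq {a c : J} {v : B} (hv : v ∈ E S a c 3) :
    R.cnt a c (dl (R.red v)) = S.rep c c 1 := by
  classical
  rw [← card_E]
  unfold cnt
  symm
  refine Finset.card_bij (fun w _ => v * w) ?_ ?_ ?_
  · intro w hw
    rw [Finset.mem_filter]
    exact R.dl_mul_unit hv hw
  · intro w _ w' _ h
    exact mul_left_cancel' (ne_zero_of_E S (by norm_num) hv) h
  · intro v' hv'
    rw [Finset.mem_filter] at hv'
    obtain ⟨w, hw, h⟩ := R.unit_of_dl hv hv'.1 hv'.2.symm
    exact ⟨w, hw, h.symm⟩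

theorem cnt_cases (a c : J) (z : ZMod 3 × ZMod 3) :
    R.cnt a c z = 0 ∨ R.cnt a c z = S.rep c c 1 := by
  by_cases h : ∃ v ∈ E S a c 3, dl (R.red v) = z
  · obtain ⟨v, hv, rfl⟩ := h
    exact Or.inr (R.cnt_eq hv)
  · left
    unfold cnt
    rw [Finset.card_eq_zero, Finset.filter_eq_empty_iff]
    intro v hv hz
    exact h ⟨v, hv, hz⟩

theorem cnt_ne {a c : J} {z : ZMod 3 × ZMod 3} (h : R.cnt a c z ≠ 0) :
    ∃ v ∈ E S a c 3, dl (R.red v) = z := by
  unfold cnt at h
  obtain ⟨v, hv⟩ := Finset.card_pos.mp (Nat.pos_of_ne_zero h)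
  rw [Finset.mem_filter] at hv
  exact ⟨v, hv.1, hv.2⟩

/-- the set of directions -/
noncomputable def DD (a c : J) : Finset (ZMod 3 × ZMod 3) := mu4.filter fun z => R.cnt a c z ≠ 0

theorem DD_sub (a c : J) : R.DD a c ⊆ mu4 := Finset.filter_subset _ _

theorem mem_DD {a c : J} {z : ZMod 3 × ZMod 3} :
    z ∈ R.DD a c ↔ ∃ v ∈ E S a c 3, dl (R.red v) = z := by
  unfold DD
  rw [Finset.mem_filter]
  constructor
  · rintro ⟨-, h⟩
    exact R.cnt_ne h
  · rintro ⟨v, hv, rfl⟩
    refine ⟨R.dl_mem hv, ?_⟩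
    unfold cnt
    have hm : v ∈ (E S a c 3).filter (fun v' => dl (R.red v') = dl (R.red v)) :=
      Finset.mem_filter.mpr ⟨hv, rfl⟩
    exact Finset.card_ne_zero_of_mem hm

theorem cnt_mem {a c : J} {z : ZMod 3 × ZMod 3} (h : z ∈ R.DD a c) :
    R.cnt a c z = S.rep c c 1 := by
  obtain ⟨v, hv, rfl⟩ := R.mem_DD.mp h
  exact R.cnt_eq hv

theorem cnt_not_mem {a c : J} {z : ZMod 3 × ZMod 3} (h : z ∉ R.DD a c) : R.cnt a c z = 0 := by
  by_contra hc
  exact h (R.mem_DD.mpr (R.cnt_ne hc))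

theorem card_DD (a c : J) : (R.DD a c).card * S.rep c c 1 = 6 := by
  have h1 := R.sum_three a c (fun _ => (1 : ℕ))
  rw [Finset.sum_const, card_E, R.rep3, smul_eq_mul, mul_one] at h1
  rw [h1, ← Finset.sum_subset (R.DD_sub a c) (fun z _ hz => by rw [R.cnt_not_mem hz, zero_smul]),
    Finset.sum_congr rfl (fun z hz => by rw [R.cnt_mem hz]), Finset.sum_const]
  simp

/-- the types -/
theorem DD_same {a c : J} (h : 0 < S.rep a c 1) : R.DD a c = R.DD a a := by
  obtain ⟨w, hw⟩ : (E S a c 1).Nonempty := by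
    rw [← Finset.card_pos, card_E]; exact h
  ext z
  rw [mem_DD, mem_DD]
  constructor
  · rintro ⟨v, hv, rfl⟩
    obtain ⟨h1, h2⟩ := R.dl_mul_unit hv (E_sta S hw)
    exact ⟨_, h1, h2⟩
  · rintro ⟨v, hv, rfl⟩
    obtain ⟨h1, h2⟩ := R.dl_mul_unit hv hw
    exact ⟨_, h1, h2⟩

theorem DD_disj {a c : J} (h : S.rep a c 1 = 0) : Disjoint (R.DD a a) (R.DD a c) := by
  rw [Finset.disjoint_left]
  intro z h1 h2
  obtain ⟨v, hv, hz⟩ := R.mem_DD.mp h1
  obtain ⟨v', hv', hz'⟩ := R.mem_DD.mp h2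
  obtain ⟨w, hw, -⟩ := R.unit_of_dl hv hv' (hz.trans hz'.symm)
  have := Finset.card_pos.mpr ⟨w, hw⟩
  rw [card_E, h] at this
  exact absurd this (lt_irrefl _)

end R3

/-- the data of the types and of the special directions -/
structure Ty {S : Sys B J} (R : R3 S) (φ : J → ℤ) (s : J → ZMod 3 × ZMod 3) : Prop where
  phi : ∀ a, φ a = 1 ∨ φ a = -3
  rep1 : ∀ a b, 2 * (S.rep a b 1 : ℤ) = 3 + φ a * φ b
  mem : ∀ a, s a ∈ mu4
  D1 : ∀ a c, φ c = -3 → R.DD a c = {s a}
  D3 : ∀ a c, φ c = 1 → R.DD a c = mu4.erase (s a)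

theorem exists_Ty {S : Sys B J} (R : R3 S) : ∃ φ s, Ty R φ s := by
  classical
  obtain ⟨φ, h1, h2⟩ := S.exists_phi
  have hr : ∀ a, φ a = -3 → S.rep a a 1 = 6 := by
    intro a ha
    have := (h2 a a).1
    rw [ha] at this
    omega
  have hr' : ∀ a, φ a = 1 → S.rep a a 1 = 2 := by
    intro a ha
    have := (h2 a a).1
    rw [ha] at this
    omega
  have hc : ∀ a c, φ c = -3 → (R.DD a c).card = 1 := by
    intro a c hφ
    have := R.card_DD a c
    rw [hr c hφ] at this
    omega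
  have hc' : ∀ a c, φ c = 1 → (R.DD a c).card = 3 := by
    intro a c hφ
    have := R.card_DD a c
    rw [hr' c hφ] at this
    omega
  have hcompl : ∀ D : Finset (ZMod 3 × ZMod 3), D ⊆ mu4 → D.card = 3 →
      ∃ z ∈ mu4, D = mu4.erase z := by
    intro D hD hD3
    have h3 : (mu4 \ D).card = 1 := by
      rw [Finset.card_sdiff_of_subset hD, card_mu4, hD3]
    obtain ⟨z, hz⟩ := Finset.card_eq_one.mp h3
    have hz1 : z ∈ mu4 \ D := by rw [hz]; exact Finset.mem_singleton_self z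
    refine ⟨z, (Finset.mem_sdiff.mp hz1).1, ?_⟩
    ext y
    rw [Finset.mem_erase]
    constructor
    · intro hy
      refine ⟨?_, hD hy⟩
      rintro rfl
      exact (Finset.mem_sdiff.mp hz1).2 hy
    · rintro ⟨hy1, hy2⟩
      by_contra hy3
      have : y ∈ mu4 \ D := Finset.mem_sdiff.mpr ⟨hy2, hy3⟩
      rw [hz, Finset.mem_singleton] at this
      exact hy1 this
  have hs : ∀ a, ∃ z ∈ mu4, (φ a = -3 → R.DD a a = {z}) ∧ (φ a = 1 → R.DD a a = mu4.erase z) := by
    intro a
    rcases h1 a with h | h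
    · obtain ⟨z, hz, hz2⟩ := hcompl _ (R.DD_sub a a) (hc' a a h)
      exact ⟨z, hz, fun h' => by rw [h] at h'; norm_num at h', fun _ => hz2⟩
    · obtain ⟨z, hz⟩ := Finset.card_eq_one.mp (hc a a h)
      refine ⟨z, R.DD_sub a a (by rw [hz]; exact Finset.mem_singleton_self z), fun _ => hz,
        fun h' => by rw [h] at h'; norm_num at h'⟩
  choose s hs1 hs2 hs3 using hs
  have hsub : ∀ a c, φ a ≠ φ c → Disjoint (R.DD a a) (R.DD a c) := by
    intro a c hne
    apply R.DD_disj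
    have := (h2 a c).1
    rcases h1 a with h | h <;> rcases h1 c with h' | h' <;> rw [h, h'] at this hne
    · exact absurd rfl hne
    · omega
    · omega
    · exact absurd rfl hne
  have hsame : ∀ a c, φ a = φ c → R.DD a c = R.DD a a := by
    intro a c he
    apply R.DD_same
    have := (h2 a c).1
    rw [he] at this
    rcases h1 c with h' | h' <;> rw [h'] at this <;> omega
  refine ⟨φ, s, h1, fun a b => (h2 a b).1, hs1, ?_, ?_⟩
  · intro a c hφ
    rcases h1 a with h | h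
    · have hd := hsub a c (by rw [h, hφ]; norm_num)
      rw [hs3 a h] at hd
      obtain ⟨z, hz⟩ := Finset.card_eq_one.mp (hc a c hφ)
      rw [hz] at hd ⊢
      rw [Finset.disjoint_singleton_right, Finset.mem_erase, not_and_or, not_not] at hd
      have hzm : z ∈ mu4 := R.DD_sub a c (by rw [hz]; exact Finset.mem_singleton_self z)
      rcases hd with hd | hd
      · rw [hd]
      · exact absurd hzm hd
    · rw [hsame a c (by rw [h, hφ]), hs2 a h]
  · intro a c hφ
    rcases h1 a with h | h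
    · rw [hsame a c (by rw [h, hφ]), hs3 a h]
    · have hd := hsub a c (by rw [h, hφ]; norm_num)
      rw [hs2 a h] at hd
      obtain ⟨z, hz, hz2⟩ := hcompl _ (R.DD_sub a c) (hc' a c hφ)
      rw [hz2] at hd ⊢
      rw [Finset.disjoint_singleton_left, Finset.mem_erase, not_and_or, not_not] at hd
      rcases hd with hd | hd
      · rw [hd]
      · exact absurd (hs1 a) hd

end Vale.Agent.P014.H698
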