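import Vale.Agent.P014.H698.R4

/-!
# The sums over the elements of norm nine
-/

namespace Vale.Agent.P014.H698

open Vale.Agent.P014.H70 Vale.Agent.P014.H70.QA

set_option linter.unusedSectionVars false

variable {B : Type*} [Ring B] [Nontrivial B] [Algebra ℚ B] [StarRing B] [QA B] {J : Type*}

namespace R3

variable {S : Sys B J} (R : R3 S)

theorem dl_sta {a b : J} {v : B} (hv : v ∈ S.I a b) (h : r1 (R.red v)) :
    dl (R.red (sta S a b v)) = dr (R.red v) ∧ dr (R.red (sta S a b v)) = dl (R.red v) := by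
  obtain ⟨h1, h2, h3⟩ := e1 _ h
  rcases R.red_sta hv with h4 | h4
  · rw [h4]; exact ⟨h2, h3⟩
  · obtain ⟨-, h5, h6⟩ := e2 _ h1
    rw [h4, h5, h6]; exact ⟨h2, h3⟩

theorem sum_sta {M : Type*} [AddCommMonoid M] (a b : J) (m : ℕ) (g : B → M) :
    ∑ v ∈ E S a b m, g (sta S a b v) = ∑ v ∈ E S b a m, g v := by
  refine Finset.sum_bij' (fun v _ => sta S a b v) (fun v _ => sta S b a v) ?_ ?_ ?_ ?_ ?_
  · intro v hv; exact E_sta S hv
  · intro v hv; exact E_sta S hv
  · intro v _; exact sta_sta S a b v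
  · intro v _; exact sta_sta S b a v
  · intro v _; rfl

theorem sum_dr {M : Type*} [AddCommMonoid M] (a c : J) (g : ZMod 3 × ZMod 3 → M) :
    ∑ v ∈ E S a c 3, g (dr (R.red v)) = ∑ v ∈ E S c a 3, g (dl (R.red v)) := by
  rw [← sum_sta (S := S) a c 3 (fun v => g (dl (R.red v)))]
  refine Finset.sum_congr rfl fun v hv => ?_
  rw [(R.dl_sta (mem_E S |>.mp hv).1 (R.r1_three hv)).1]

/-- the pairs with primitive product -/
noncomputable def PP (a b c : J) : Finset (B × B) :=
  ((E S a c 3) ×ˢ (E S c b 3)).filter fun p => mm (R.red p.1) (R.red p.2) ≠ 0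

/-- the pairs with imprimitive product -/
noncomputable def PN (a b c : J) : Finset (B × B) :=
  ((E S a c 3) ×ˢ (E S c b 3)).filter fun p => mm (R.red p.1) (R.red p.2) = 0

theorem sum_PP_add_PN {M : Type*} [AddCommMonoid M] (a b c : J) (F : B × B → M) :
    ∑ p ∈ R.PP a b c, F p + ∑ p ∈ R.PN a b c, F p =
      ∑ u ∈ E S a c 3, ∑ v ∈ E S c b 3, F (u, v) := by
  unfold PP PN
  rw [add_comm, Finset.sum_filter_add_sum_filter_not, Finset.sum_product]

/-- the elements of norm nine which are primitive -/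
noncomputable def P9 (a b : J) : Finset B := (E S a b 9).filter fun w => R.red w ≠ 0

/-- **factorisations of the primitive elements** -/
theorem sum_PP (a b c : J) (F : B → ℤ) :
    ∑ p ∈ R.PP a b c, F (p.1 * p.2) =
      ∑ w ∈ R.P9 a b, (R.cnt a c (dl (R.red w)) : ℤ) * F w := by
  classical
  have hmaps : ∀ p ∈ R.PP a b c, p.1 * p.2 ∈ R.P9 a b := by
    intro p hp
    unfold PP at hp
    rw [Finset.mem_filter, Finset.mem_product] at hp
    unfold P9
    rw [Finset.mem_filter]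
    have h1 : p.1 * p.2 ∈ E S a b (3 * 3) := E_mul S hp.1.1 hp.1.2
    refine ⟨h1, ?_⟩
    rw [R.mul (mem_E S |>.mp hp.1.1).1 (mem_E S |>.mp hp.1.2).1]
    exact hp.2
  rw [← Finset.sum_fiberwise_of_maps_to hmaps]
  refine Finset.sum_congr rfl fun w hw => ?_
  rw [Finset.sum_congr rfl (g := fun _ => F w) (fun p hp => by
    rw [(Finset.mem_filter.mp hp).2]), Finset.sum_const, nsmul_eq_mul]
  congr 1
  unfold P9 at hw
  rw [Finset.mem_filter] at hw
  have hw9 : w ∈ E S a b (3 * 3) := hw.1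
  have hwr := R.r1_nine hw.1 hw.2
  unfold cnt
  norm_cast
  refine Finset.card_bij (fun p _ => p.1) ?_ ?_ ?_
  · intro p hp
    rw [Finset.mem_filter] at hp
    obtain ⟨hp1, hp2⟩ := hp
    unfold PP at hp1
    rw [Finset.mem_filter, Finset.mem_product] at hp1
    rw [Finset.mem_filter]
    refine ⟨hp1.1.1, ?_⟩
    have h1 := R.mul (mem_E S |>.mp hp1.1.1).1 (mem_E S |>.mp hp1.1.2).1
    rw [hp2] at h1
    rw [h1]
    exact (c2 _ _ (R.r1_three hp1.1.1) (R.r1_three hp1.1.2) hp1.2).2.1.symm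
  · intro p hp p' hp' h
    rw [Finset.mem_filter] at hp hp'
    obtain ⟨hp1, hp2⟩ := hp
    unfold PP at hp1
    rw [Finset.mem_filter, Finset.mem_product] at hp1
    refine Prod.ext h ?_
    apply mul_left_cancel' (ne_zero_of_E S (by norm_num) hp1.1.1)
    rw [hp2, h, hp'.2]
  · intro u hu
    rw [Finset.mem_filter] at hu
    have h0 := (b1 _ _ (R.r1_three hu.1) hwr).mpr hu.2
    obtain ⟨v, hv, hv2⟩ := R.factor hu.1 hw9 h0
    refine ⟨(u, v), ?_, rfl⟩
    rw [Finset.mem_filter]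
    refine ⟨?_, hv2.symm⟩
    unfold PP
    rw [Finset.mem_filter, Finset.mem_product]
    refine ⟨⟨hu.1, hv⟩, ?_⟩
    rw [← R.mul (mem_E S |>.mp hu.1).1 (mem_E S |>.mp hv).1, ← hv2]
    exact hw.2

/-- **the imprimitive products** -/
theorem sum_PN {M : Type*} [AddCommMonoid M] (a b c : J) (F : B × B → M) :
    ∑ p ∈ R.PN a b c, F p = ∑ u ∈ E S a c 3, ∑ w ∈ E S a b 1, F (u, sta S a c u * w) := by
  classical
  rw [← Finset.sum_product']
  symm
  refine Finset.sum_bij (fun p _ => (p.1, sta S a c p.1 * p.2)) ?_ ?_ ?_ ?_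
  · intro p hp
    rw [Finset.mem_product] at hp
    unfold PN
    rw [Finset.mem_filter, Finset.mem_product]
    have h1 : sta S a c p.1 * p.2 ∈ E S c b (3 * 1) := E_mul S (E_sta S hp.1) hp.2
    refine ⟨⟨hp.1, h1⟩, ?_⟩
    have h2 := mem_E S |>.mp hp.1
    have h3 := mem_E S |>.mp h1
    have h4 := mem_E S |>.mp hp.2
    show mm (R.red p.1) (R.red (sta S a c p.1 * p.2)) = 0
    rw [← R.mul h2.1 h3.1, ← mul_assoc, mul_sta, h2.2]
    have h5 : algebraMap ℚ B ((3 : ℕ) : ℚ) * p.2 = p.2 + p.2 + p.2 := by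
      rw [map_natCast]
      push_cast
      have : (3 : B) = 1 + 1 + 1 := by norm_num
      rw [this, add_mul, add_mul, one_mul]
    have h6 : p.2 + p.2 ∈ S.I a b := (S.I a b).add_mem h4.1 h4.1
    rw [h5, R.add h6 h4.1, R.add h4.1 h4.1]
    have : ∀ x : M9, x + x + x = 0 := by
      intro x
      have h7 : ∀ y : ZMod 3, y + y + y = 0 := by decide
      ext <;> exact h7 _
    exact this _
  · intro p hp p' hp' h
    rw [Finset.mem_product] at hp hp'
    obtain ⟨h1, h2⟩ := Prod.mk.inj h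
    refine Prod.ext h1 ?_
    rw [← h1] at h2
    exact mul_left_cancel' (ne_zero_of_E S (by norm_num) (E_sta S hp.1)) h2
  · intro p hp
    unfold PN at hp
    rw [Finset.mem_filter, Finset.mem_product] at hp
    obtain ⟨⟨h1, h2⟩, h3⟩ := hp
    have h4 := mem_E S |>.mp h1
    have h5 := mem_E S |>.mp h2
    have h6 : p.1 * p.2 ∈ E S a b (3 * 3) := E_mul S h1 h2
    obtain ⟨k, hk, w, hw, hw2⟩ := R.E_zer h6 (by rw [R.mul h4.1 h5.1]; exact h3)
    have hk1 : k = 1 := by omega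
    subst hk1
    refine ⟨(p.1, w), Finset.mem_product.mpr ⟨h1, hw⟩, ?_⟩
    refine Prod.ext rfl ?_
    show sta S a c p.1 * w = p.2
    apply zsmul_cancel (m := 3) (by norm_num)
    rw [← mul_smul_comm, ← hw2, ← mul_assoc, sta_mul_self, h4.2, zsmul_eq]
    norm_num
  · intro p _
    rfl

end R3

end Vale.Agent.P014.H698
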