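import Vale.Agent.P014.H698.R5

/-!
# The main identity (conductor three)
-/

namespace Vale.Agent.P014.H698

open Vale.Agent.P014.H70 Vale.Agent.P014.H70.QA

set_option linter.unusedSectionVars false

variable {B : Type*} [Ring B] [Nontrivial B] [Algebra ℚ B] [StarRing B] [QA B] {J : Type*}

namespace Ty

variable {S : Sys B J} {R : R3 S} {φ : J → ℤ} {s : J → ZMod 3 × ZMod 3} (T : Ty R φ s)

include T

theorem cnt3 {a c : J} (h : φ c = -3) (z : ZMod 3 × ZMod 3) :
    (R.cnt a c z : ℤ) = if z = s a then 6 else 0 := by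
  have h1 := T.D1 a c h
  split_ifs with hz
  · have h2 : z ∈ R.DD a c := by rw [h1, hz]; exact Finset.mem_singleton_self _
    rw [R.cnt_mem h2]
    have := T.rep1 c c
    rw [h] at this
    omega
  · rw [R.cnt_not_mem (by rw [h1, Finset.mem_singleton]; exact hz)]
    norm_num

theorem cnt1 {a c : J} (h : φ c = 1) {z : ZMod 3 × ZMod 3} (hz : z ∈ mu4) :
    (R.cnt a c z : ℤ) = if z = s a then 0 else 2 := by
  have h1 := T.D3 a c h
  split_ifs with hzs
  · rw [R.cnt_not_mem (by rw [h1, Finset.mem_erase]; exact fun h => h.1 hzs)]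
    norm_num
  · have h2 : z ∈ R.DD a c := by rw [h1, Finset.mem_erase]; exact ⟨hzs, hz⟩
    rw [R.cnt_mem h2]
    have := T.rep1 c c
    rw [h] at this
    omega

/-- sums over the elements of norm three, type `-3` -/
theorem sum3 {a c : J} (h : φ c = -3) (g : ZMod 3 × ZMod 3 → ℤ) :
    ∑ v ∈ E S a c 3, g (dl (R.red v)) = 6 * g (s a) := by
  rw [R.sum_three]
  rw [Finset.sum_congr rfl (g := fun z => if z = s a then 6 * g z else 0) (fun z _ => by
    rw [nsmul_eq_mul, T.cnt3 h]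
    split_ifs <;> ring)]
  rw [Finset.sum_ite_eq' mu4 (s a) (fun z => 6 * g z), if_pos (T.mem a)]

/-- sums over the elements of norm three, type `1` -/
theorem sum1 {a c : J} (h : φ c = 1) (g : ZMod 3 × ZMod 3 → ℤ) :
    ∑ v ∈ E S a c 3, g (dl (R.red v)) = 2 * ∑ z ∈ mu4, g z - 2 * g (s a) := by
  rw [R.sum_three]
  rw [Finset.sum_congr rfl (g := fun z => 2 * g z - if z = s a then 2 * g z else 0) (fun z hz => by
    rw [nsmul_eq_mul, T.cnt1 h hz]
    split_ifs <;> ring)]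
  rw [Finset.sum_sub_distrib, Finset.sum_ite_eq' mu4 (s a) (fun z => 2 * g z),
    if_pos (T.mem a), Finset.mul_sum]

/-- the sign of `a` -/
theorem S1 (a c : J) : ∑ v ∈ E S a c 3, lam (dl (R.red v)) = -2 * φ c * lam (s a) := by
  rcases T.phi c with h | h
  · rw [T.sum1 h, sum_lam, h]; ring
  · rw [T.sum3 h, h]; ring

theorem S2 (a c : J) : ∑ v ∈ E S a c 3, lam (dr (R.red v)) = -2 * φ a * lam (s c) := by
  rw [R.sum_dr a c lam, T.S1]

/-- the sum over all pairs -/
theorem all_pairs (a b c : J) : ∑ u ∈ E S a c 3, ∑ v ∈ E S c b 3,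
    lam (dl (R.red u)) * lam (dr (R.red v)) = 4 * φ c ^ 2 * (lam (s a) * lam (s b)) := by
  rw [← Finset.sum_mul_sum, T.S1, T.S2]
  ring

/-- the sum of `eta` against the number of factorisations -/
theorem fact_sum (a b c : J) :
    ∑ w ∈ R.P9 a b, (R.cnt a c (dl (R.red w)) : ℤ) * eta (R.red w).1 =
      4 * φ c ^ 2 * (lam (s a) * lam (s b)) -
        ∑ w ∈ E S a b 1, ∑ u ∈ E S a c 3,
          eta ((R.red w).1 + m9 (dl (R.red u)) (c9 (R.red w).2)) := by
  have h1 := R.sum_PP a b c (fun w => eta (R.red w).1)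
  have h2 := R.sum_PP_add_PN a b c (fun p => lam (dl (R.red p.1)) * lam (dr (R.red p.2)))
  rw [T.all_pairs, R.sum_PN] at h2
  rw [← h1]
  have h3 : ∑ p ∈ R.PP a b c, eta (R.red (p.1 * p.2)).1 =
      ∑ p ∈ R.PP a b c, lam (dl (R.red p.1)) * lam (dr (R.red p.2)) := by
    refine Finset.sum_congr rfl fun p hp => ?_
    unfold R3.PP at hp
    rw [Finset.mem_filter, Finset.mem_product] at hp
    rw [R.mul (mem_E S |>.mp hp.1.1).1 (mem_E S |>.mp hp.1.2).1]
    obtain ⟨h4, h5, h6⟩ := c2 _ _ (R.r1_three hp.1.1) (R.r1_three hp.1.2) hp.2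
    rw [(a1 _ h4.1 h4.2).2.2, h5, h6]
  have h4 : ∑ u ∈ E S a c 3, ∑ w ∈ E S a b 1,
      lam (dl (R.red u)) * lam (dr (R.red (sta S a c u * w))) =
      ∑ w ∈ E S a b 1, ∑ u ∈ E S a c 3,
          eta ((R.red w).1 + m9 (dl (R.red u)) (c9 (R.red w).2)) := by
    rw [Finset.sum_comm]
    refine Finset.sum_congr rfl fun w hw => Finset.sum_congr rfl fun u hu => ?_
    have hu' := mem_E S |>.mp hu
    have hw' := mem_E S |>.mp hw
    have hsu := E_sta S hu
    have hsu' := mem_E S |>.mp hsu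
    have hr := R.r1_three hu
    rw [R.mul hsu'.1 hw'.1, f1 _ _ (R.r1_three hsu) (R.red_ne_of_unit hw),
      (R.dl_sta hu'.1 hr).2]
    have h5 := lam_pm _ (a1 _ hr.1 hr.2).1
    rcases h5 with h5 | h5 <;> rw [h5] <;> ring
  simp only at h2
  rw [h4] at h2
  rw [h3]
  linarith

theorem rep_ab {a b : J} : 2 * ((E S a b 1).card : ℤ) = 3 + φ a * φ b := by
  rw [card_E]; exact T.rep1 a b

end Ty

end Vale.Agent.P014.H698
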