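import Vale.Agent.P014.H698.R6

/-!
# The main identity (conductor three): the three cases
-/

namespace Vale.Agent.P014.H698

open Vale.Agent.P014.H70 Vale.Agent.P014.H70.QA

set_option linter.unusedSectionVars false

variable {B : Type*} [Ring B] [Nontrivial B] [Algebra ℚ B] [StarRing B] [QA B] {J : Type*}

namespace R3

variable {S : Sys B J} (R : R3 S)

theorem red_zero (a : J) : R.red 0 = 0 := by
  have h := R.add (S.I a a).zero_mem (S.I a a).zero_mem
  rw [add_zero] at h
  exact left_eq_add.mp h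

theorem red_neg {a b : J} {v : B} (hv : v ∈ S.I a b) : R.red (-v) = -R.red v := by
  have h := R.add hv ((S.I a b).neg_mem hv)
  rw [add_neg_cancel, R.red_zero a] at h
  exact (neg_eq_of_add_eq_zero_right h.symm).symm

theorem red_sub {a b : J} {u v : B} (hu : u ∈ S.I a b) (hv : v ∈ S.I a b) :
    R.red (u - v) = R.red u - R.red v := by
  rw [sub_eq_add_neg, R.add hu ((S.I a b).neg_mem hv), R.red_neg hv, sub_eq_add_neg]

theorem eta_zero : eta (0 : M9).1 = 0 := by decide +kernel

theorem sum_nine (a b : J) : ∑ w ∈ E S a b 9, eta (R.red w).1 = ∑ w ∈ R.P9 a b, eta (R.red w).1 := by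
  unfold P9
  rw [Finset.sum_filter]
  refine Finset.sum_congr rfl fun w _ => ?_
  split_ifs with h
  · rfl
  · rw [not_not] at h
    rw [h, eta_zero]

theorem card_nine (a b : J) : (R.P9 a b).card + (E S a b 1).card = (E S a b 9).card := by
  classical
  unfold P9
  rw [← Finset.card_filter_add_card_filter_not (s := E S a b 9) (fun w => R.red w ≠ 0)]
  congr 1
  refine Finset.card_bij (fun w _ => (3 : ℤ) • w) ?_ ?_ ?_
  · intro w hw
    have h1 := mem_E S |>.mp hw
    rw [Finset.mem_filter, not_not, mem_E]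
    refine ⟨⟨(S.I a b).zsmul_mem h1.1 3, ?_⟩, ?_⟩
    · rw [Qn_zsmul, h1.2]; norm_num
    · have h6 : w + w ∈ S.I a b := (S.I a b).add_mem h1.1 h1.1
      have h5 : (3 : ℤ) • w = w + w + w := by
        rw [show (3 : ℤ) = 1 + 1 + 1 by norm_num, add_smul, add_smul, one_smul]
      rw [h5, R.add h6 h1.1, R.add h1.1 h1.1]
      have : ∀ x : M9, x + x + x = 0 := by
        intro x
        have h7 : ∀ y : ZMod 3, y + y + y = 0 := by decide
        ext <;> exact h7 _
      exact this _
  · intro w _ w' _ h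
    exact zsmul_cancel (by norm_num) h
  · intro w hw
    rw [Finset.mem_filter, not_not] at hw
    obtain ⟨k, hk, v, hv, hv2⟩ := R.E_zer hw.1 hw.2
    have : k = 1 := by omega
    subst this
    exact ⟨v, hv, hv2.symm⟩

end R3

namespace Ty

variable {S : Sys B J} {R : R3 S} {φ : J → ℤ} {s : J → ZMod 3 × ZMod 3} (T : Ty R φ s)

include T

theorem card_E9 (a b : J) : ((E S a b 9).card : ℤ) + 3 * (E S a b 1).card = 24 := by
  have := R.rep9 a b
  rw [← card_E, ← card_E] at this
  exact_mod_cast this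

/-- different types -/
theorem case_C {a b : J} (h0 : (E S a b 1).card = 0) {c d : J} (hc : φ c = 1) (hd : φ d = -3) :
    ∑ w ∈ R.P9 a b, eta (R.red w).1 = 8 * (lam (s a) * lam (s b)) := by
  have hE := Finset.card_eq_zero.mp h0
  have h1 := T.fact_sum a b c
  have h2 := T.fact_sum a b d
  rw [hE, Finset.sum_empty, sub_zero] at h1 h2
  rw [hc] at h1
  rw [hd] at h2
  have h3 : 6 * ∑ w ∈ R.P9 a b, eta (R.red w).1 =
      3 * (∑ w ∈ R.P9 a b, (R.cnt a c (dl (R.red w)) : ℤ) * eta (R.red w).1) +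
      ∑ w ∈ R.P9 a b, (R.cnt a d (dl (R.red w)) : ℤ) * eta (R.red w).1 := by
    rw [Finset.mul_sum, Finset.mul_sum, ← Finset.sum_add_distrib]
    refine Finset.sum_congr rfl fun w hw => ?_
    unfold R3.P9 at hw
    rw [Finset.mem_filter] at hw
    have hr := R.r1_nine hw.1 hw.2
    rw [T.cnt3 hd, T.cnt1 hc (a1 _ hr.1 hr.2).1]
    split_ifs <;> ring
  rw [h1, h2] at h3
  linarith

/-- the direction of `a` is sent to the direction of `b` -/
theorem eta_unit {a b : J} (ha : φ a = 1) {w : B} (hw : w ∈ E S a b 1) :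
    eta ((R.red w).1 + m9 (s a) (c9 (R.red w).2)) = lam (s a) * lam (s b) := by
  have hw' := mem_E S |>.mp hw
  have h1 : ∑ v ∈ E S a a 3, lam (dr (R.red (v * w))) = ∑ v ∈ E S a b 3, lam (dr (R.red v)) := by
    refine Finset.sum_bij' (fun v _ => v * w) (fun v _ => v * sta S a b w) ?_ ?_ ?_ ?_ ?_
    · intro v hv; exact (R.dl_mul_unit hv hw).1
    · intro v hv; exact (R.dl_mul_unit hv (E_sta S hw)).1
    · intro v _
      rw [mul_assoc, mul_sta, hw'.2]; simp
    · intro v _
      rw [mul_assoc, sta_mul_self, hw'.2]; simp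
    · intro v _; rfl
  rw [T.S2, ha] at h1
  have h2 : ∑ v ∈ E S a a 3, lam (dr (R.red (v * w))) =
      ∑ v ∈ E S a a 3, (fun z => lam z * eta ((R.red w).1 + m9 z (c9 (R.red w).2)))
        (dr (R.red v)) := by
    refine Finset.sum_congr rfl fun v hv => ?_
    rw [R.mul (mem_E S |>.mp hv).1 hw'.1, f1 _ _ (R.r1_three hv) (R.red_ne_of_unit hw)]
  rw [h2, R.sum_dr a a (fun z => lam z * eta ((R.red w).1 + m9 z (c9 (R.red w).2))),
    T.sum1 ha (fun z => lam z * eta ((R.red w).1 + m9 z (c9 (R.red w).2))),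
    g2 _ (R.red_ne_of_unit hw)] at h1
  have h3 := lam_pm _ (T.mem a)
  rcases h3 with h3 | h3 <;> rw [h3] at h1 ⊢ <;> linarith

/-- both of type one -/
theorem case_B {a b : J} (ha : φ a = 1) (hb : φ b = 1) :
    ∑ w ∈ R.P9 a b, eta (R.red w).1 + 4 * ∑ u ∈ E S a b 1, hh (R.red u) =
      8 * (lam (s a) * lam (s b)) := by
  classical
  have hE1 : ((E S a b 1).card : ℤ) = 2 := by
    have := T.rep_ab (a := a) (b := b)
    rw [ha, hb] at this
    linarith
  have hE9 : ((E S a b 9).card : ℤ) = 18 := by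
    have := T.card_E9 a b
    linarith
  have hP9 : ((R.P9 a b).card : ℤ) = 16 := by
    have h1 := R.card_nine a b
    have h2 : ((R.P9 a b).card : ℤ) + (E S a b 1).card = (E S a b 9).card := by exact_mod_cast h1
    linarith
  -- the factorising part
  have h1 := T.fact_sum a b a
  rw [ha] at h1
  have h2 : ∑ w ∈ E S a b 1, ∑ u ∈ E S a a 3,
      eta ((R.red w).1 + m9 (dl (R.red u)) (c9 (R.red w).2)) =
      8 * ∑ w ∈ E S a b 1, hh (R.red w) - 4 * (lam (s a) * lam (s b)) := by
    have h3 : ∀ w ∈ E S a b 1, ∑ u ∈ E S a a 3,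
        eta ((R.red w).1 + m9 (dl (R.red u)) (c9 (R.red w).2)) =
        8 * hh (R.red w) - 2 * (lam (s a) * lam (s b)) := by
      intro w hw
      rw [T.sum1 ha (fun z => eta ((R.red w).1 + m9 z (c9 (R.red w).2))),
        g1 _ (R.red_ne_of_unit hw), T.eta_unit ha hw]
      unfold hh
      ring
    rw [Finset.sum_congr rfl h3, Finset.sum_sub_distrib, Finset.sum_const, ← Finset.mul_sum,
      nsmul_eq_mul, hE1]
    ring
  rw [h2] at h1
  -- the counts
  have hcnt : ∑ w ∈ R.P9 a b, (R.cnt a a (dl (R.red w)) : ℤ) = 24 := by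
    have h3 := R.sum_PP a b a (fun _ => 1)
    have h4 := R.sum_PP_add_PN a b a (fun _ => (1 : ℤ))
    rw [R.sum_PN] at h4
    simp only [mul_one] at h3
    rw [← h3]
    simp only [Finset.sum_const, nsmul_eq_mul, mul_one, card_E, R.rep3] at h4 ⊢
    rw [← card_E S a b 1, hE1] at h4
    push_cast at h4
    linarith
  have hsplit : ∀ w ∈ R.P9 a b, (R.cnt a a (dl (R.red w)) : ℤ) =
      if dl (R.red w) = s a then 0 else 2 := by
    intro w hw
    unfold R3.P9 at hw
    rw [Finset.mem_filter] at hw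
    have hr := R.r1_nine hw.1 hw.2
    exact T.cnt1 ha (a1 _ hr.1 hr.2).1
  have hN : (((R.P9 a b).filter fun w => dl (R.red w) = s a).card : ℤ) = 4 := by
    rw [Finset.sum_congr rfl hsplit] at hcnt
    have h5 : ∑ w ∈ R.P9 a b, (if dl (R.red w) = s a then (0 : ℤ) else 2) =
        2 * (R.P9 a b).card - 2 * ((R.P9 a b).filter fun w => dl (R.red w) = s a).card := by
      have h6 : ∀ w ∈ R.P9 a b, (if dl (R.red w) = s a then (0 : ℤ) else 2) =
          2 - if dl (R.red w) = s a then 2 else 0 := by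
        intro w _; split_ifs <;> ring
      rw [Finset.sum_congr rfl h6, Finset.sum_sub_distrib, ← Finset.sum_filter,
        Finset.sum_const, Finset.sum_const, nsmul_eq_mul, nsmul_eq_mul]
      ring
    rw [h5, hP9] at hcnt
    linarith
  -- the right direction
  have hdir : ∀ w ∈ R.P9 a b, dl (R.red w) = s a →
      eta (R.red w).1 = lam (s a) * lam (s b) := by
    intro w hw hws
    unfold R3.P9 at hw
    rw [Finset.mem_filter] at hw
    have hr := R.r1_nine hw.1 hw.2
    have hw' := mem_E S |>.mp hw.1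
    obtain ⟨hd1, hd2⟩ := R.dl_sta hw'.1 hr
    have hsw : sta S a b w ∈ E S b a (3 * 3) := E_sta S hw.1
    have hsr : r1 (R.red (sta S a b w)) := by
      refine ⟨R.nm_zero hsw ⟨3, rfl⟩, fun h0 => ?_⟩
      rcases R.red_sta hw'.1 with h4 | h4
      · rw [h4] at h0
        exact (e1 _ hr).1.2 h0
      · rw [h4, neg_eq_zero] at h0
        exact (e1 _ hr).1.2 h0
    have key : dr (R.red w) = s b := by
      by_contra hne
      have hm : dr (R.red w) ∈ R.DD b b := by
        rw [T.D3 b b hb, Finset.mem_erase]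
        exact ⟨hne, (a1 _ hr.1 hr.2).2.1⟩
      obtain ⟨u, hu, hu2⟩ := R.mem_DD.mp hm
      rw [← hd1] at hu2
      have h0 := (b1 _ _ (R.r1_three hu) hsr).mpr hu2
      obtain ⟨v, hv, hv2⟩ := R.factor hu hsw h0
      have h6 := R.mul (mem_E S |>.mp hu).1 (mem_E S |>.mp hv).1
      rw [← hv2] at h6
      have h7 := (c2 _ _ (R.r1_three hu) (R.r1_three hv) (by rw [← h6]; exact hsr.2)).2.2
      rw [← h6, hd2, hws] at h7
      have hv' := mem_E S |>.mp hv
      have h8 := (R.dl_sta hv'.1 (R.r1_three hv)).1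
      have h9 : s a ∈ R.DD a b := R.mem_DD.mpr ⟨_, E_sta S hv, by rw [h8, h7]⟩
      rw [T.D3 a b hb, Finset.mem_erase] at h9
      exact h9.1 rfl
    rw [(a1 _ hr.1 hr.2).2.2, hws, key]
  have hfin : 2 * ∑ w ∈ R.P9 a b, eta (R.red w).1 =
      ∑ w ∈ R.P9 a b, (R.cnt a a (dl (R.red w)) : ℤ) * eta (R.red w).1 +
        2 * (4 * (lam (s a) * lam (s b))) := by
    have h5 : ∀ w ∈ R.P9 a b, 2 * eta (R.red w).1 =
        (R.cnt a a (dl (R.red w)) : ℤ) * eta (R.red w).1 +
          if dl (R.red w) = s a then 2 * (lam (s a) * lam (s b)) else 0 := by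
      intro w hw
      rw [hsplit w hw]
      split_ifs with h6
      · rw [hdir w hw h6]; ring
      · ring
    rw [Finset.mul_sum, Finset.sum_congr rfl h5, Finset.sum_add_distrib, ← Finset.sum_filter,
      Finset.sum_const, nsmul_eq_mul, hN]
    ring
  rw [h1] at hfin
  linarith

end Ty

end Vale.Agent.P014.H698
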