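import Vale.Agent.P014.H698.Ker

/-!
# FM6: the number of kernel vectors of `N(n)` as a sum over factorisations, tuples
-/

namespace Vale.Agent.P014.H698

open Finset Vale.Agent.P014.FM

theorem chi4_eq (d : ℕ) : chi4 d = ((ZMod.χ₄ (d : ZMod 4) : ℤ) : ℝ) := by
  unfold chi4
  rw [ZMod.χ₄_nat_eq_if_mod_four]
  have : d % 4 < 4 := Nat.mod_lt _ (by norm_num)
  split_ifs with h1 h2 h3 h4 <;> first | omega | simp

theorem chi4_mul (a b : ℕ) : chi4 (a * b) = chi4 a * chi4 b := by
  rw [chi4_eq, chi4_eq, chi4_eq]; push_cast; rw [map_mul]; push_cast; ring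

theorem chi4_one : chi4 1 = 1 := by unfold chi4; norm_num

theorem chi4_prod {ι : Type*} (s : Finset ι) (f : ι → ℕ) :
    chi4 (∏ i ∈ s, f i) = ∏ i ∈ s, chi4 (f i) := by
  classical
  induction s using Finset.induction_on with
  | empty => simp [chi4_one]
  | insert i s hi ih => rw [Finset.prod_insert hi, Finset.prod_insert hi, chi4_mul, ih]

theorem J_one_left (e : ℕ) : J 1 e = 1 := by
  unfold H580.J; rw [Nat.cast_one, jacobiSym.one_left, Int.cast_one]

theorem J_one_right (e : ℕ) : J e 1 = 1 := by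
  unfold H580.J; rw [jacobiSym.one_right, Int.cast_one]

theorem J_prod_left {ι : Type*} (s : Finset ι) (f : ι → ℕ) (e : ℕ) :
    J (∏ i ∈ s, f i) e = ∏ i ∈ s, J (f i) e := by
  classical
  induction s using Finset.induction_on with
  | empty => simp [J_one_left]
  | insert i s hi ih => rw [Finset.prod_insert hi, Finset.prod_insert hi, H580.J_mul_left, ih]

theorem J_prod_right {ι : Type*} (s : Finset ι) (f : ι → ℕ) (hf : ∀ i ∈ s, f i ≠ 0) (e : ℕ) :
    J e (∏ i ∈ s, f i) = ∏ i ∈ s, J e (f i) := by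
  classical
  induction s using Finset.induction_on with
  | empty => simp [J_one_right]
  | insert i s hi ih =>
    rw [Finset.prod_insert hi, Finset.prod_insert hi, H580.J_mul_right _ _ _
      (hf i (Finset.mem_insert_self _ _))
      (Finset.prod_ne_zero_iff.mpr fun j hj => hf j (Finset.mem_insert_of_mem hj)),
      ih fun j hj => hf j (Finset.mem_insert_of_mem hj)]

/-- `sg` of an additive symbol -/
theorem sg_ite {z : ℤ} (hz : z = 1 ∨ z = -1) : sg (if z = -1 then 1 else 0) = (z : ℝ) := by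
  rcases hz with rfl | rfl
  · rw [if_neg (by norm_num), sg_zero]; norm_num
  · rw [if_pos rfl, sg_one]; norm_num

theorem jac_pm {a : ℤ} {b : ℕ} (h : Int.gcd a b = 1) : jacobiSym a b = 1 ∨ jacobiSym a b = -1 :=
  (jacobiSym.eq_one_or_neg_one h)

theorem sg_sP {p : ℕ} (hp : Nat.Coprime p 17) : sg (sP p) = J p 17 := by
  unfold sP H580.J
  rw [sg_ite (jac_pm (a := (p : ℤ)) (b := 17) ?_)]
  rw [show (((17 : ℕ) : ℤ)) = ((17 : ℕ) : ℤ) from rfl, Int.gcd_natCast_natCast]
  exact hp

theorem sg_eP {p : ℕ} (hp : p % 2 = 1) : sg (eP p) = chi4 p := by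
  unfold eP chi4
  have : p % 4 = 1 ∨ p % 4 = 3 := by omega
  rcases this with h | h
  · rw [if_neg (by omega), if_pos h, sg_zero]
  · rw [if_pos h, if_neg (by omega), if_pos h, sg_one]

theorem jac_qstar {p q : ℕ} (hp : p % 2 = 1) (hq : q % 2 = 1) :
    jacobiSym (qstar q) p = jacobiSym p q := by
  unfold qstar
  have hpo := Nat.odd_iff.mpr hp
  have hqo := Nat.odd_iff.mpr hq
  have h4 : q % 4 = 1 ∨ q % 4 = 3 := by omega
  rcases h4 with h4 | h4
  · rw [if_neg (by omega)]
    exact jacobiSym.quadratic_reciprocity_one_mod_four h4 hpo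
  · rw [if_pos h4, neg_eq_neg_one_mul, jacobiSym.mul_left, jacobiSym.at_neg_one hpo]
    have h5 : p % 4 = 1 ∨ p % 4 = 3 := by omega
    rcases h5 with h5 | h5
    · rw [ZMod.χ₄_nat_one_mod_four h5, one_mul,
        jacobiSym.quadratic_reciprocity_one_mod_four' hqo h5]
    · rw [ZMod.χ₄_nat_three_mod_four h5,
        jacobiSym.quadratic_reciprocity_three_mod_four h4 h5]
      ring

theorem sg_wP {p q : ℕ} (hp : p % 2 = 1) (hq : q % 2 = 1) (hpq : Nat.Coprime p q) :
    sg (wP p q) = J p q := by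
  unfold wP H580.J
  rw [jac_qstar hp hq, sg_ite (jac_pm (a := (p : ℤ)) (b := q) ?_)]
  rw [Int.gcd_natCast_natCast]
  exact hpq

theorem sg_mul_ite (a b : ZMod 2) : sg (a * b) = if b = 1 then sg a else 1 := by
  rcases zmod2_cases b with rfl | rfl
  · rw [mul_zero, sg_zero, if_neg (by decide)]
  · rw [mul_one, if_pos rfl]

/-- the factorisation attached to a colouring -/
def Dc {n : ℕ} (c : n.primeFactors → Idx) (u : Idx) : ℕ :=
  ∏ p ∈ Finset.univ.filter (fun p => c p = u), (p : ℕ)

theorem wt_Dc {n : ℕ} (hodd : n % 2 = 1) (h17 : Nat.Coprime n 17) (c : n.primeFactors → Idx) :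
    wt (Dc c) = (∏ p : n.primeFactors, sg (sP p * e17 (c p)) * sg (eP p * e4 (c p))) *
      ∏ p : n.primeFactors, ∏ q : n.primeFactors, sg (wP p q * Phi (c p) (c q)) := by
  have hdvd : ∀ p : n.primeFactors, (p : ℕ) ∣ n := fun p => Nat.dvd_of_mem_primeFactors p.2
  have hpr : ∀ p : n.primeFactors, (p : ℕ).Prime := fun p => Nat.prime_of_mem_primeFactors p.2
  have hpo : ∀ p : n.primeFactors, (p : ℕ) % 2 = 1 := by
    intro p
    by_contra hc
    have h2 : 2 ∣ (p : ℕ) := by omega
    have := h2.trans (hdvd p)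
    omega
  have hp17 : ∀ p : n.primeFactors, Nat.Coprime (p : ℕ) 17 := fun p =>
    Nat.Coprime.coprime_dvd_left (hdvd p) h17
  unfold wt
  congr 1
  · have h1 : ∀ u : Idx, ((if e17 u = 1 then J (Dc c u) 17 else 1) *
        (if e4 u = 1 then chi4 (Dc c u) else 1)) =
        ∏ p ∈ Finset.univ.filter (fun p => c p = u),
          sg (sP p * e17 (c p)) * sg (eP p * e4 (c p)) := by
      intro u
      rw [Finset.prod_mul_distrib]
      congr 1
      · split_ifs with h
        · unfold Dc
          rw [J_prod_left]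
          refine Finset.prod_congr rfl fun p hp => ?_
          rw [Finset.mem_filter] at hp
          rw [sg_mul_ite, hp.2, if_pos h, sg_sP (hp17 p)]
        · refine (Finset.prod_eq_one fun p hp => ?_).symm
          rw [Finset.mem_filter] at hp
          rw [sg_mul_ite, hp.2, if_neg h]
      · split_ifs with h
        · unfold Dc
          rw [chi4_prod]
          refine Finset.prod_congr rfl fun p hp => ?_
          rw [Finset.mem_filter] at hp
          rw [sg_mul_ite, hp.2, if_pos h, sg_eP (hpo p)]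
        · refine (Finset.prod_eq_one fun p hp => ?_).symm
          rw [Finset.mem_filter] at hp
          rw [sg_mul_ite, hp.2, if_neg h]
    rw [Finset.prod_congr rfl fun u _ => h1 u]
    exact Finset.prod_fiberwise _ _ _
  · have h1 : ∀ u v : Idx, (if Phi u v = 1 then J (Dc c u) (Dc c v) else 1) =
        ∏ p ∈ Finset.univ.filter (fun p => c p = u), ∏ q ∈ Finset.univ.filter (fun q => c q = v),
          sg (wP p q * Phi (c p) (c q)) := by
      intro u v
      split_ifs with h
      · unfold Dc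
        rw [J_prod_left]
        refine Finset.prod_congr rfl fun p hp => ?_
        rw [Finset.mem_filter] at hp
        rw [J_prod_right _ _ fun q _ => (hpr q).ne_zero]
        refine Finset.prod_congr rfl fun q hq => ?_
        rw [Finset.mem_filter] at hq
        rw [sg_mul_ite, hp.2, hq.2, if_pos h, sg_wP (hpo p) (hpo q)]
        rw [Nat.coprime_primes (hpr p) (hpr q)]
        intro hpq
        have hpq' : p = q := Subtype.ext hpq
        rw [← hp.2, ← hq.2, hpq', Phi_self] at h
        exact absurd h (by decide)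
      · refine (Finset.prod_eq_one fun p hp => Finset.prod_eq_one fun q hq => ?_).symm
        rw [Finset.mem_filter] at hp hq
        show sg (wP p q * Phi (c p) (c q)) = 1
        rw [sg_mul_ite, hp.2, hq.2, if_neg h]
    rw [Finset.prod_congr rfl fun u _ => Finset.prod_congr rfl fun v _ => h1 u v]
    have h2 : ∀ u : Idx, ∏ v : Idx, ∏ p ∈ Finset.univ.filter (fun p => c p = u),
        ∏ q ∈ Finset.univ.filter (fun q => c q = v), sg (wP p q * Phi (c p) (c q)) =
        ∏ p ∈ Finset.univ.filter (fun p => c p = u),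
          ∏ q : n.primeFactors, sg (wP p q * Phi (c p) (c q)) := by
      intro u
      rw [Finset.prod_comm]
      refine Finset.prod_congr rfl fun p _ => ?_
      exact Finset.prod_fiberwise _ _ _
    rw [Finset.prod_congr rfl fun u _ => h2 u]
    exact Finset.prod_fiberwise _ _ _

theorem prod_Dc {n : ℕ} (hn : Squarefree n) (c : n.primeFactors → Idx) : ∏ u, Dc c u = n := by
  unfold Dc
  rw [Finset.prod_fiberwise Finset.univ c (fun p => (p : ℕ)),
    Finset.prod_coe_sort n.primeFactors (fun p => p)]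
  exact Nat.prod_primeFactors_of_squarefree hn

theorem Dc_dvd {n : ℕ} (hn : Squarefree n) (c : n.primeFactors → Idx) (u : Idx) : Dc c u ∣ n := by
  conv_rhs => rw [← prod_Dc hn c]
  exact Finset.dvd_prod_of_mem _ (Finset.mem_univ u)

theorem dvd_Dc_iff {n : ℕ} (c : n.primeFactors → Idx) (u : Idx) (p : n.primeFactors) :
    (p : ℕ) ∣ Dc c u ↔ c p = u := by
  have hpr : ∀ p : n.primeFactors, (p : ℕ).Prime := fun p => Nat.prime_of_mem_primeFactors p.2
  unfold Dc
  rw [(hpr p).prime.dvd_finsetProd_iff]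
  constructor
  · rintro ⟨q, hq, hpq⟩
    rw [Finset.mem_filter] at hq
    have : p = q := Subtype.ext ((Nat.prime_dvd_prime_iff_eq (hpr p) (hpr q)).mp hpq)
    rw [this]; exact hq.2
  · intro h
    exact ⟨p, Finset.mem_filter.mpr ⟨Finset.mem_univ _, h⟩, dvd_rfl⟩

theorem sum_tuples {n : ℕ} (hn : Squarefree n) (F : (Idx → ℕ) → ℝ) :
    ∑ c : n.primeFactors → Idx, F (Dc c) = ∑ D ∈ tuples n, F D := by
  classical
  have hn0 : n ≠ 0 := hn.ne_zero
  refine Finset.sum_bij (fun c _ => Dc c) ?_ ?_ ?_ ?_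
  · intro c _
    unfold tuples
    rw [Finset.mem_filter, Fintype.mem_piFinset]
    exact ⟨fun u => Nat.mem_divisors.mpr ⟨Dc_dvd hn c u, hn0⟩, prod_Dc hn c⟩
  · intro c _ c' _ h
    funext p
    have h1 := (dvd_Dc_iff c (c p) p).mpr rfl
    have h' : Dc c = Dc c' := h
    rw [h'] at h1
    exact ((dvd_Dc_iff c' (c p) p).mp h1).symm
  · intro D hD
    unfold tuples at hD
    rw [Finset.mem_filter, Fintype.mem_piFinset] at hD
    obtain ⟨hD1, hD2⟩ := hD
    have hD0 : ∀ u, D u ≠ 0 := fun u => (Nat.pos_of_mem_divisors (hD1 u)).ne'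
    have h1 : ∀ p : n.primeFactors, ∃ u, (p : ℕ) ∣ D u := by
      intro p
      have h2 : (p : ℕ) ∣ ∏ u, D u := hD2.symm ▸ Nat.dvd_of_mem_primeFactors p.2
      rw [(Nat.prime_of_mem_primeFactors p.2).prime.dvd_finsetProd_iff] at h2
      obtain ⟨u, _, hu⟩ := h2
      exact ⟨u, hu⟩
    choose c hc using h1
    refine ⟨c, Finset.mem_univ _, ?_⟩
    funext u
    have hDn : ∀ u, D u ∣ n := fun u => Nat.dvd_of_mem_divisors (hD1 u)
    rw [Nat.Squarefree.ext_iff (hn.squarefree_of_dvd (Dc_dvd hn c u))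
      (hn.squarefree_of_dvd (hDn u))]
    intro p hp
    constructor
    · intro h
      have hpn : p ∈ n.primeFactors :=
        Nat.mem_primeFactors.mpr ⟨hp, h.trans (Dc_dvd hn c u), hn0⟩
      have h4 := (dvd_Dc_iff c u ⟨p, hpn⟩).mp h
      have h5 := hc ⟨p, hpn⟩
      rwa [h4] at h5
    · intro h
      have hpn : p ∈ n.primeFactors :=
        Nat.mem_primeFactors.mpr ⟨hp, h.trans (hDn u), hn0⟩
      refine (dvd_Dc_iff c u ⟨p, hpn⟩).mpr ?_
      by_contra hne
      have h5 := hc ⟨p, hpn⟩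
      have h6 : p * p ∣ n := by
        rw [← hD2, ← Finset.mul_prod_erase Finset.univ D (Finset.mem_univ u)]
        exact Nat.mul_dvd_mul h (h5.trans (Finset.dvd_prod_of_mem _
          (Finset.mem_erase.mpr ⟨hne, Finset.mem_univ _⟩)))
      exact hp.not_isUnit (hn p h6)
  · intro c _; rfl

/-- **FM6** -/
theorem card_ker_eq {n : ℕ} (hn : Squarefree n) (hodd : n % 2 = 1) (h17 : Nat.Coprime n 17) :
    (Nat.card {x // (NP n).mulVec x = 0} : ℝ) = kerAv n := by
  have h1 := card_ker_colour sP eP wP n.primeFactors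
  have h2 : ∑ c : n.primeFactors → Idx,
      (∏ p : n.primeFactors, sg (sP p * e17 (c p)) * sg (eP p * e4 (c p))) *
      ∏ p : n.primeFactors, ∏ q : n.primeFactors, sg (wP p q * Phi (c p) (c q)) =
      ∑ D ∈ tuples n, wt D := by
    rw [← sum_tuples hn]
    refine Finset.sum_congr rfl fun c _ => ?_
    rw [wt_Dc hodd h17]
  rw [h2] at h1
  unfold kerAv
  rw [← h1, ← mul_assoc, ← mul_pow]
  norm_num
  rfl

end Vale.Agent.P014.H698
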